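import Vale.Agent.P196.Full.Universal.Frame

/-!
# P196: conjugation of small frames, centrality of the kernel, and localisation
-/

namespace Vale.Agent.P196.Full

open Set

variable {X : Type} [TopologicalSpace X] {n : ℕ} {S : Sys X}

/-- Constant on a set. -/
def ConstOn {α : Type*} (f : X → α) (V : Set X) : Prop := ∀ x ∈ V, ∀ y ∈ V, f x = f y

theorem Tower.W_mono (T : Tower S) : Monotone T.W :=
  monotone_nat_of_le_succ fun m => Nat.le_of_dvd (T.W_pos _) (T.W_dvd m)

theorem Tower.isLocallyConstant_phase (T : Tower S) (m : ℕ) : IsLocallyConstant (T.phase m) :=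
  (IsLocallyConstant.iff_isOpen_fiber).2 fun c => (T.isClopen_fiber m c).isOpen

theorem Tower.phase_of_translate (T : Tower S) {m : ℕ} {v : Lat} {x : X} :
    T.phase m x = T.phase m (S.sh (-v) x) + ((v.1 : ZMod (T.W m)), (v.2 : ZMod (T.W m))) := by
  rw [← T.phase_sh, S.sh_sh, add_neg_cancel, S.sh_zero]

/-- For large levels, a set of constant phase has disjoint translates along a given finite set. -/
theorem Tower.exists_sep (T : Tower S) (L : Finset Lat) :
    ∃ M, ∀ m, M ≤ m → ∀ V : Set X, ConstOn (T.phase m) V → S.SepV V L := by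
  set B := L.sup fun v => v.1.natAbs + v.2.natAbs
  obtain ⟨M, hM⟩ := T.W_unbounded (2 * B + 1)
  refine ⟨M, fun m hm V hV u hu v hv huv => Set.disjoint_left.2 fun x hxu hxv => huv ?_⟩
  have hW : 2 * B + 1 ≤ T.W m := hM.trans (T.W_mono hm)
  have e1 := T.phase_of_translate (m := m) (v := u) (x := x)
  have e2 := T.phase_of_translate (m := m) (v := v) (x := x)
  rw [hV _ hxu _ hxv] at e1
  have e := add_left_cancel (e1.symm.trans e2)
  simp only [Prod.mk.injEq, ZMod.intCast_eq_intCast_iff_dvd_sub] at e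
  have bu : u.1.natAbs + u.2.natAbs ≤ B := Finset.le_sup (f := fun v : Lat => v.1.natAbs + v.2.natAbs) hu
  have bv : v.1.natAbs + v.2.natAbs ≤ B := Finset.le_sup (f := fun v : Lat => v.1.natAbs + v.2.natAbs) hv
  have h1 : v.1 - u.1 = 0 := Int.eq_zero_of_abs_lt_dvd e.1 (by rw [Int.abs_eq_natAbs]; omega)
  have h2 : v.2 - u.2 = 0 := Int.eq_zero_of_abs_lt_dvd e.2 (by rw [Int.abs_eq_natAbs]; omega)
  exact Prod.ext (by omega) (by omega)

theorem isClopen_translate (v : Lat) {U : Set X} (hU : IsClopen U) : IsClopen (S.translate v U) :=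
  hU.preimage (S.sh (-v)).continuous

theorem translate_translate (u v : Lat) (U : Set X) :
    S.translate u (S.translate v U) = S.translate (u + v) U := by
  ext x
  simp only [Sys.mem_translate, S.sh_sh]
  rw [neg_add_rev]

theorem translate_zero (U : Set X) : S.translate 0 U = U := by
  ext x; simp [Sys.mem_translate, S.sh_zero]

theorem Gen.eq_mk {g h : Gen X n} (hU : (g.U : Set X) = h.U) (hp : g.p = h.p) (hq : g.q = h.q)
    (hr : g.r = h.r) : g = h := by
  obtain ⟨U, p, q, r, t⟩ := g
  obtain ⟨U', p', q', r', t'⟩ := h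
  obtain rfl : U = U' := TopologicalSpace.Clopens.ext hU
  simp only at hp hq hr
  subst hp hq hr
  rfl

/-- Conjugation by `u` sends small frames into small frames. -/
def ConjOK (u : UGroup S n) : Prop :=
  ∀ L : Finset Lat, ∃ L', L ⊆ L' ∧ ∃ (α : Type) (_ : Finite α) (f : X → α), IsLocallyConstant f ∧
    ∀ V : Clo X, ConstOn f (V : Set X) → ∀ b ∈ frameSub S V L, u * b * u⁻¹ ∈ frameSub S V L'

theorem ConjOK.one : ConjOK (1 : UGroup S n) := fun L =>
  ⟨L, le_rfl, Unit, inferInstance, fun _ => (), IsLocallyConstant.const _,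
    fun _ _ b hb => by simpa using hb⟩

theorem ConjOK.mul {u v : UGroup S n} (hu : ConjOK u) (hv : ConjOK v) : ConjOK (u * v) := by
  intro L
  obtain ⟨L₁, hL₁, α, _, f, hf, h₁⟩ := hv L
  obtain ⟨L₂, hL₂, β, _, k, hk, h₂⟩ := hu L₁
  refine ⟨L₂, hL₁.trans hL₂, α × β, inferInstance, fun x => (f x, k x), hf.prodMk hk,
    fun V hV b hb => ?_⟩
  have := h₂ V (fun x hx y hy => (Prod.mk.injEq _ _ _ _ ▸ hV x hx y hy).2) _
    (h₁ V (fun x hx y hy => (Prod.mk.injEq _ _ _ _ ▸ hV x hx y hy).1) b hb)
  simpa [mul_assoc] using this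

theorem ConjOK.gen (T : Tower S) (g : Gen X n) :
    ConjOK (ugen S g) ∧ ConjOK (ugen S g)⁻¹ := by
  classical
  rw [ConjOK, ConjOK, ← forall_and]
  intro L
  set A : Finset Lat := {g.p.1, g.q.1, g.r.1}
  set D : Finset Lat := (L ×ˢ A).image fun va => va.1 - va.2
  set L' : Finset Lat := L ∪ (D ×ˢ A).image fun da => da.2 + da.1
  obtain ⟨m, hm⟩ := T.exists_sep (L' ∪ D)
  let f : X → (ZMod (T.W m) × ZMod (T.W m)) × (↥D → Prop) :=
    fun x => (T.phase m x, fun d => S.sh d x ∈ (g.U : Set X))
  have hf : IsLocallyConstant f := by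
    refine (T.isLocallyConstant_phase m).prodMk ((IsLocallyConstant.iff_eventually_eq _).2 fun x => ?_)
    simp only [funext_iff, Filter.eventually_all]
    intro d
    have hc : IsClopen ((fun y => S.sh (d : Lat) y) ⁻¹' (g.U : Set X)) :=
      g.U.isClopen.preimage (S.sh (d : Lat)).continuous
    by_cases hx : S.sh (d : Lat) x ∈ (g.U : Set X)
    · filter_upwards [hc.isOpen.mem_nhds hx] with y hy
      simp only [eq_iff_iff]
      exact iff_of_true hy hx
    · filter_upwards [hc.compl.isOpen.mem_nhds hx] with y hy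
      simp only [eq_iff_iff]
      exact iff_of_false hy hx
  have hfin : Finite ((ZMod (T.W m) × ZMod (T.W m)) × (↥D → Prop)) := by
    have : NeZero (T.W m) := ⟨(T.W_pos m).ne'⟩
    infer_instance
  suffices key : ∀ V : Clo X, ConstOn f (V : Set X) → ∀ b ∈ frameSub S V L,
      ∃ i ∈ frameSub S V L', ∃ o : UGroup S n, Commute o b ∧ ugen S g = i * o ∧ ugen S g = o * i by
    constructor
    · refine ⟨L', Finset.subset_union_left, _, hfin, f, hf, fun V hV b hb => ?_⟩
      obtain ⟨i, hi, o, ho, e, -⟩ := key V hV b hb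
      rw [e, show i * o * b * (i * o)⁻¹ = i * (o * b * o⁻¹) * i⁻¹ by group, ho.eq,
        mul_inv_cancel_right]
      exact mul_mem (mul_mem hi (frameSub_mono V Finset.subset_union_left hb)) (inv_mem hi)
    · refine ⟨L', Finset.subset_union_left, _, hfin, f, hf, fun V hV b hb => ?_⟩
      obtain ⟨i, hi, o, ho, -, e⟩ := key V hV b hb
      rw [inv_inv, e, show (o * i)⁻¹ * b * (o * i) = i⁻¹ * (o⁻¹ * (b * o)) * i by group, ← ho.eq,
        inv_mul_cancel_left]
      exact mul_mem (mul_mem (inv_mem hi) (frameSub_mono V Finset.subset_union_left hb)) hi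
  intro V hV b hb
  have hph : ConstOn (T.phase m) (V : Set X) := fun x hx y hy => congrArg Prod.fst (hV x hx y hy)
  have hsep := hm m le_rfl (V : Set X) hph
  set Din : Finset Lat := D.filter fun d => ∃ x ∈ V, S.sh d x ∈ g.U
  let piece : Lat → Clo X := fun d => ⟨S.translate d V, isClopen_translate d V.isClopen⟩
  set Win : Clo X := ⟨⋃ d ∈ Din, (piece d : Set X),
    isClopen_biUnion_finset fun d _ => (piece d).isClopen⟩
  have hWin : (Win : Set X) ⊆ g.U := by
    intro y hy
    simp only [Win, piece, TopologicalSpace.Clopens.coe_mk, Set.mem_iUnion, Sys.mem_translate] at hy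
    obtain ⟨d, hd, hy⟩ := hy
    obtain ⟨hdD, x, hx, hxU⟩ := Finset.mem_filter.1 hd
    have := congrFun (congrArg Prod.snd (hV x hx _ hy)) ⟨d, hdD⟩
    simp only [f, S.sh_sh, add_neg_cancel, S.sh_zero, eq_iff_iff] at this
    exact this.1 hxU
  set Wout : Clo X := g.U \ Win
  have hd : Disjoint (Win : Set X) (Wout : Set X) := disjoint_sdiff_self_right
  have hu : (g.U : Set X) = (Win : Set X) ∪ (Wout : Set X) := (Set.union_sdiff_cancel hWin).symm
  refine ⟨ugen S (g.withU Win), ?_, ugen S (g.withU Wout), ?_, ugen_add g Win Wout hd hu,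
    ugen_add g Wout Win hd.symm (by rw [hu, Set.union_comm])⟩
  · refine ugen_mem_of_partition _ Din piece ?_ _ rfl fun d hd => ?_
    · intro a ha b hb hab
      exact hsep a (Finset.mem_union_right _ (Finset.mem_filter.1 ha).1) b
        (Finset.mem_union_right _ (Finset.mem_filter.1 hb).1) hab
    · rw [← ugen_move ((g.withU Win).withU (piece d)) (-d)]
      refine Subgroup.subset_closure ⟨_, mem_frameGens.2 ⟨?_, ?_, ?_, ?_⟩, rfl⟩
      · refine TopologicalSpace.Clopens.ext ?_
        show S.translate (-d) (S.translate d V) = _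
        rw [translate_translate, neg_add_cancel, translate_zero]
      all_goals refine Finset.mem_union_right _ (Finset.mem_image.2 ?_)
      exacts [⟨(d, g.p.1), Finset.mem_product.2 ⟨(Finset.mem_filter.1 hd).1, by simp [A]⟩,
          by simp [Gen.move, Gen.withU]⟩,
        ⟨(d, g.q.1), Finset.mem_product.2 ⟨(Finset.mem_filter.1 hd).1, by simp [A]⟩,
          by simp [Gen.move, Gen.withU]⟩,
        ⟨(d, g.r.1), Finset.mem_product.2 ⟨(Finset.mem_filter.1 hd).1, by simp [A]⟩,
          by simp [Gen.move, Gen.withU]⟩]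
  · refine commute_frameSub (Set.disjoint_left.2 fun z hz hr => ?_) hb
    obtain ⟨a, ha, -, hzU⟩ := (Gen.mem_supp_iff _ _).1 hz
    obtain ⟨v, hv, hzV⟩ := hr
    have ha' : a.1 ∈ A := by rcases ha with rfl | rfl | rfl <;> simp [A, Gen.withU]
    have hzg : S.sh (-a.1) z.1 ∈ g.U := hzU.1
    refine hzU.2 ?_
    simp only [Win, piece, TopologicalSpace.Clopens.coe_mk, Set.mem_iUnion, Sys.mem_translate]
    refine ⟨v - a.1, Finset.mem_filter.2 ⟨Finset.mem_image.2 ⟨(v, a.1), Finset.mem_product.2 ⟨hv, ha'⟩,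
      rfl⟩, S.sh (-v) z.1, hzV, ?_⟩, ?_⟩
    · rw [S.sh_sh, show v - a.1 + -v = -a.1 by abel]; exact hzg
    · rw [S.sh_sh, show -(v - a.1) + -a.1 = -v by abel]; exact hzV

theorem conjOK (T : Tower S) (u : UGroup S n) : ConjOK u := by
  have hu : u ∈ Subgroup.closure (Set.range (ugen S (n := n))) := by rw [closure_range_ugen]; trivial
  induction hu using Subgroup.closure_induction_left with
  | one => exact ConjOK.one
  | mul_left x hx y _ hy =>
    obtain ⟨g, rfl⟩ := hx
    exact (ConjOK.gen T g).1.mul hy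
  | inv_mul_cancel x hx y _ hy =>
    obtain ⟨g, rfl⟩ := hx
    exact (ConjOK.gen T g).2.mul hy

/-- Conjugation of small frames is seen by evaluation. -/
theorem exists_fine_conj (T : Tower S) (u : UGroup S n) (L : Finset Lat) :
    ∃ (α : Type) (_ : Finite α) (f : X → α), IsLocallyConstant f ∧ ∀ V : Clo X,
      ConstOn f (V : Set X) → ∀ b ∈ frameSub S V L,
        Commute (ueval S u) (ueval S b) → Commute u b := by
  obtain ⟨L', hL, α, _, f, hf, h⟩ := conjOK T u L
  obtain ⟨m, hm⟩ := T.exists_sep L'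
  have : NeZero (T.W m) := ⟨(T.W_pos m).ne'⟩
  refine ⟨α × (ZMod (T.W m) × ZMod (T.W m)), inferInstance, fun x => (f x, T.phase m x),
    hf.prodMk (T.isLocallyConstant_phase m), fun V hV b hb hc => ?_⟩
  have e : u * b * u⁻¹ = b := by
    refine frameSub_ext (hm m le_rfl _ fun x hx y hy => congrArg Prod.snd (hV x hx y hy))
      (h V (fun x hx y hy => congrArg Prod.fst (hV x hx y hy)) b hb) (frameSub_mono V hL hb) ?_
    rw [map_mul, map_mul, map_inv, hc.eq, mul_inv_cancel_right]
  exact mul_inv_eq_iff_eq_mul.1 e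

/-- The kernel of evaluation is central. -/
theorem ker_central (T : Tower S) {u : UGroup S n} (hu : ueval S u = 1) :
    u ∈ Subgroup.center (UGroup S n) := by
  refine Subgroup.mem_center_iff.2 fun x => ?_
  have hx : x ∈ Subgroup.closure (Set.range (ugen S (n := n))) := by rw [closure_range_ugen]; trivial
  suffices x ∈ Subgroup.centralizer {u} from Subgroup.mem_centralizer_singleton_iff.1 this
  refine (Subgroup.closure_le _).2 ?_ hx
  rintro _ ⟨g, rfl⟩
  set L : Finset Lat := {g.p.1, g.q.1, g.r.1}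
  obtain ⟨α, _, f, hf, h⟩ := exists_fine_conj T u L
  refine ugen_mem_of_fibres _ g hf fun V _ hV => Subgroup.mem_centralizer_singleton_iff.2 ?_
  refine (h V hV _ (Subgroup.subset_closure ⟨g.withU V, mem_frameGens.2
    ⟨rfl, by simp [L, Gen.withU], by simp [L, Gen.withU], by simp [L, Gen.withU]⟩, rfl⟩) ?_).eq.symm
  rw [hu]
  exact Commute.one_left _

/-- Every generator is a product of generators localised at phase zero. -/
theorem ugen_mem_closure_phase_zero (T : Tower S) (m : ℕ) (g : Gen X n) :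
    ugen S g ∈ Subgroup.closure (ugen S '' {h : Gen X n | ∀ x ∈ h.U, T.phase m x = 0}) := by
  have : NeZero (T.W m) := ⟨(T.W_pos m).ne'⟩
  refine ugen_mem_of_fibres _ g (T.isLocallyConstant_phase m) fun V _ hV => ?_
  by_cases hne : ∃ y, y ∈ V
  · obtain ⟨y, hy⟩ := hne
    set c := T.phase m y
    set v : Lat := (-(c.1.val : ℤ), -(c.2.val : ℤ))
    rw [← ugen_move (g.withU V) v]
    refine Subgroup.subset_closure ⟨_, fun x hx => ?_, rfl⟩
    rw [T.phase_of_translate (v := v), hV _ hx y hy]
    show c + _ = 0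
    simp [v, Prod.ext_iff]
  · refine Subgroup.subset_closure ⟨g.withU V, fun x hx => absurd ⟨x, hx⟩ hne, rfl⟩

end Vale.Agent.P196.Full
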