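import Vale.Agent.P196.Full.Universal.Family

/-!
# P196: the basic calculus of the universal group

`Eval`: evaluation and additivity; `Frame`: frame homomorphisms; `Conj`: conjugation, centrality of
the kernel, localisation; `Family`: locally constant families on a frame.
-/
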