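import Vale.Agent.P196.Full.Goals

/-!
# P196: finite generation of the kernel of the universal group: statements
-/

namespace Vale.Agent.P196.Full

variable {X : Type} [TopologicalSpace X] {n : ℕ}

/-- The kernel of the evaluation of the universal group is normally generated by finitely many
elements. -/
def KernelFinite (S : Sys X) (n : ℕ) : Prop :=
  ∃ Z : Set (FreeGroup (Gen X n)), Z.Finite ∧ (∀ z ∈ Z, evalWord S z = 1) ∧
    ∀ w : FreeGroup (Gen X n), evalWord S w = 1 →
      w ∈ Subgroup.normalClosure ({w | URel S w} ∪ Z)

/-- For any observable, on the corners of arbitrarily coarse grids the value and the parities of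
the counts along the two edges leaving the corner take boundedly many forms. -/
def Tower.BoundedTypes {S : Sys X} (T : Tower S) : Prop :=
  ∃ Q : ℕ, ∀ (α : Type) (f : X → α), Finite α → IsLocallyConstant f → ∀ C : ℕ, ∃ m, C ≤ T.W m ∧
    ∃ τ : X → Fin Q, ∀ x x', T.phase m x = 0 → T.phase m x' = 0 → τ x = τ x' →
      f x = f x' ∧ ∀ (ax : Bool) (a : α),
        (Nat.card {j : Fin (T.W m) // f (S.sh (axisVec ax (j : ℤ) 0) x) = a} : ZMod 2) =
          Nat.card {j : Fin (T.W m) // f (S.sh (axisVec ax (j : ℤ) 0) x') = a}

end Vale.Agent.P196.Full
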