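import Vale.Agent.P196.Full.Gen

/-!
# P196: the universal group, its evaluation, and additivity
-/

namespace Vale.Agent.P196.Full

open Set

variable {X : Type} [TopologicalSpace X] {n : ℕ} {S : Sys X}

/-- A generator with clopen set `V` and the offsets of `g`. -/
def Gen.withU (g : Gen X n) (V : Clo X) : Gen X n := ⟨V, g.p, g.q, g.r, g.tri⟩

/-- A generator moved to the origin `-v`. -/
def Gen.move (S : Sys X) (g : Gen X n) (v : Lat) : Gen X n :=
  ⟨⟨S.translate v g.U, g.U.isClopen.preimage (S.sh (-v)).continuous⟩,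
    (g.p.1 - v, g.p.2), (g.q.1 - v, g.q.2), (g.r.1 - v, g.r.2), g.tri⟩

theorem Sys.mem_translate {v : Lat} {U : Set X} {x : X} :
    x ∈ S.translate v U ↔ S.sh (-v) x ∈ U := Iff.rfl

theorem Gen.perm_apply_of_notMem (g : Gen X n) {z : Pt X n} (h : z ∉ g.supp S) :
    g.perm S z = z := by
  simp only [Gen.supp, Set.mem_ofPred_eq, not_or] at h
  show S.cycFun g.U g.p g.q g.r z = z
  simp [Sys.cycFun, h.1, h.2.1, h.2.2]

theorem Gen.mem_supp_iff (g : Gen X n) (z : Pt X n) :
    z ∈ g.supp S ↔ ∃ a : Off n, (a = g.p ∨ a = g.q ∨ a = g.r) ∧ z.2 = a.2 ∧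
      S.sh (-a.1) z.1 ∈ g.U := by
  simp [Gen.supp]

section cycFun

variable {U : Set X} {p q r : Off n} {z : Pt X n}

theorem Sys.cycFun_fst (h : z.2 = p.2) (hz : S.sh (-p.1) z.1 ∈ U) :
    S.cycFun U p q r z = (S.sh (q.1 - p.1) z.1, q.2) := by
  unfold Sys.cycFun
  rw [if_pos ⟨h, hz⟩]

theorem Sys.cycFun_snd (t : Sys.Tri p q r) (h : z.2 = q.2) (hz : S.sh (-q.1) z.1 ∈ U) :
    S.cycFun U p q r z = (S.sh (r.1 - q.1) z.1, r.2) := by
  unfold Sys.cycFun
  rw [if_neg (fun e => t.1 (e.1.symm.trans h)), if_pos ⟨h, hz⟩]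

theorem Sys.cycFun_trd (t : Sys.Tri p q r) (h : z.2 = r.2) (hz : S.sh (-r.1) z.1 ∈ U) :
    S.cycFun U p q r z = (S.sh (p.1 - r.1) z.1, p.2) := by
  unfold Sys.cycFun
  rw [if_neg (fun e => t.2.2 (e.1.symm.trans h)), if_neg (fun e => t.2.1 (e.1.symm.trans h)),
    if_pos ⟨h, hz⟩]

theorem Sys.cycFun_none (hp : z.2 = p.2 → S.sh (-p.1) z.1 ∉ U)
    (hq : z.2 = q.2 → S.sh (-q.1) z.1 ∉ U) (hr : z.2 = r.2 → S.sh (-r.1) z.1 ∉ U) :
    S.cycFun U p q r z = z := by
  unfold Sys.cycFun
  rw [if_neg (fun e => hp e.1 e.2), if_neg (fun e => hq e.1 e.2), if_neg (fun e => hr e.1 e.2)]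

theorem Sys.cycFun_cases (t : Sys.Tri p q r) (z : Pt X n) :
    (z.2 = p.2 ∧ S.sh (-p.1) z.1 ∈ U) ∨ (z.2 = q.2 ∧ S.sh (-q.1) z.1 ∈ U) ∨
      (z.2 = r.2 ∧ S.sh (-r.1) z.1 ∈ U) ∨ ((z.2 = p.2 → S.sh (-p.1) z.1 ∉ U) ∧
        (z.2 = q.2 → S.sh (-q.1) z.1 ∉ U) ∧ (z.2 = r.2 → S.sh (-r.1) z.1 ∉ U)) := by
  obtain ⟨h1, h2, h3⟩ := t
  tauto

theorem Sys.cycFun_union {A B : Set X} (t : Sys.Tri p q r) (hd : Disjoint A B) (z : Pt X n) :
    S.cycFun (A ∪ B) p q r z = S.cycFun A p q r (S.cycFun B p q r z) := by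
  have e1 : ∀ a b : Lat, -a + (a - b) = -b := fun a b => by abel
  have hBA : ∀ y, y ∈ B → y ∉ A := fun y hb ha => Set.disjoint_left.1 hd ha hb
  rcases S.cycFun_cases (U := B) t z with ⟨h, hz⟩ | ⟨h, hz⟩ | ⟨h, hz⟩ | ⟨hp, hq, hr⟩
  · rw [S.cycFun_fst h hz, S.cycFun_fst h (Or.inr hz)]
    refine (S.cycFun_none (fun e => absurd e.symm t.1) (fun _ => ?_)
      (fun e => absurd e t.2.1)).symm
    rw [S.sh_sh, e1]
    exact hBA _ hz
  · rw [S.cycFun_snd t h hz, S.cycFun_snd t h (Or.inr hz)]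
    refine (S.cycFun_none (fun e => absurd e.symm t.2.2) (fun e => absurd e.symm t.2.1)
      (fun _ => ?_)).symm
    rw [S.sh_sh, e1]
    exact hBA _ hz
  · rw [S.cycFun_trd t h hz, S.cycFun_trd t h (Or.inr hz)]
    refine (S.cycFun_none (fun _ => ?_) (fun e => absurd e t.1)
      (fun e => absurd e t.2.2)).symm
    rw [S.sh_sh, e1]
    exact hBA _ hz
  · rw [S.cycFun_none hp hq hr]
    rcases S.cycFun_cases (U := A) t z with ⟨h, hz⟩ | ⟨h, hz⟩ | ⟨h, hz⟩ | ⟨hp', hq', hr'⟩
    · rw [S.cycFun_fst h hz, S.cycFun_fst h (Or.inl hz)]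
    · rw [S.cycFun_snd t h hz, S.cycFun_snd t h (Or.inl hz)]
    · rw [S.cycFun_trd t h hz, S.cycFun_trd t h (Or.inl hz)]
    · rw [S.cycFun_none hp' hq' hr', S.cycFun_none]
      all_goals (intro e hU; rcases hU with hU | hU)
      exacts [hp' e hU, hp e hU, hq' e hU, hq e hU, hr' e hU, hr e hU]

theorem Sys.cycFun_translate (v : Lat) (z : Pt X n) :
    S.cycFun (S.translate v U) (p.1 - v, p.2) (q.1 - v, q.2) (r.1 - v, r.2) z =
      S.cycFun U p q r z := by
  have e : ∀ (a : Lat) (y : X), (S.sh (-(a - v)) y ∈ S.translate v U) = (S.sh (-a) y ∈ U) :=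
    fun a y => by
      rw [Sys.mem_translate, S.sh_sh, show -v + -(a - v) = -a by abel]
  unfold Sys.cycFun
  simp only [sub_sub_sub_cancel_right]
  congr 1
  · rw [e]
  congr 1
  · rw [e]
  congr 1
  rw [e]

end cycFun

/-- Evaluation of the relators. -/
theorem evalWord_eq_one_of_urel {w : FreeGroup (Gen X n)} (h : URel S w) : evalWord S w = 1 := by
  cases h with
  | add g a b ha hb hd hu =>
    simp only [map_mul, map_inv, evalWord, FreeGroup.lift_apply_of]
    rw [inv_mul_eq_one]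
    refine Equiv.ext fun z => ?_
    show S.cycFun g.U g.p g.q g.r z = S.cycFun a.U a.p a.q a.r (S.cycFun b.U b.p b.q b.r z)
    rw [ha.1, ha.2.1, ha.2.2, hb.1, hb.2.1, hb.2.2, ← S.cycFun_union g.tri (by assumption)]
    congr 1
  | shift g h v hU hp hq hr =>
    simp only [map_mul, map_inv, evalWord, FreeGroup.lift_apply_of]
    rw [inv_mul_eq_one]
    refine Equiv.ext fun z => ?_
    show S.cycFun g.U g.p g.q g.r z = S.cycFun h.U h.p h.q h.r z
    rw [hp, hq, hr, show (h.U : Set X) = S.translate v g.U by assumption, S.cycFun_translate]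
  | comm g h hd =>
    simp only [map_mul, map_inv, evalWord, FreeGroup.lift_apply_of]
    have hc : Commute (g.perm S) (h.perm S) := Equiv.Perm.Disjoint.commute fun z => by
      by_cases hz : z ∈ g.supp S
      · exact Or.inr (h.perm_apply_of_notMem (Set.disjoint_left.1 hd hz))
      · exact Or.inl (g.perm_apply_of_notMem hz)
    rw [hc.eq, mul_inv_cancel_right, mul_inv_cancel]
  | frame V F hF hw h1 => assumption

variable (S)

/-- The class of a generator. -/
def ugen (g : Gen X n) : UGroup S n := PresentedGroup.of g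

/-- Evaluation on the universal group. -/
noncomputable def ueval : UGroup S n →* Equiv.Perm (Pt X n) :=
  PresentedGroup.toGroup (f := Gen.perm S) fun _ hw => evalWord_eq_one_of_urel hw

variable {S}

@[simp] theorem ueval_ugen (g : Gen X n) : ueval S (ugen S g) = g.perm S :=
  PresentedGroup.toGroup.of _

theorem ueval_mk (w : FreeGroup (Gen X n)) :
    ueval S (PresentedGroup.mk _ w) = evalWord S w := rfl

theorem mk_eq_one_of_urel {w : FreeGroup (Gen X n)} (h : URel S w) :
    (PresentedGroup.mk {v : FreeGroup (Gen X n) | URel S v} w) = 1 :=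
  (QuotientGroup.eq_one_iff w).2 (Subgroup.subset_normalClosure h)

theorem closure_range_ugen : Subgroup.closure (Set.range (ugen S (n := n))) = ⊤ :=
  PresentedGroup.closure_range_of _

theorem ugen_add (g : Gen X n) (A B : Clo X) (hd : Disjoint (A : Set X) (B : Set X))
    (hu : (g.U : Set X) = (A : Set X) ∪ (B : Set X)) :
    ugen S g = ugen S (g.withU A) * ugen S (g.withU B) := by
  have := mk_eq_one_of_urel (URel.add (S := S) g (g.withU A) (g.withU B) ⟨rfl, rfl, rfl⟩
    ⟨rfl, rfl, rfl⟩ hd hu)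
  simp only [map_mul, map_inv] at this
  exact inv_mul_eq_one.1 this

theorem ugen_empty (g : Gen X n) (h : (g.U : Set X) = ∅) : ugen S g = 1 := by
  have := ugen_add (S := S) g g.U g.U (by rw [h]; exact disjoint_bot_left) (by rw [h, union_empty])
  exact left_eq_mul.1 this

theorem ugen_move (g : Gen X n) (v : Lat) : ugen S (g.move S v) = ugen S g := by
  have := mk_eq_one_of_urel (URel.shift (S := S) g (g.move S v) v rfl rfl rfl rfl)
  simp only [map_mul, map_inv] at this
  exact (inv_mul_eq_one.1 this).symm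

theorem ugen_commute (g h : Gen X n) (hd : Disjoint (g.supp S) (h.supp S)) :
    Commute (ugen S g) (ugen S h) := by
  have := mk_eq_one_of_urel (URel.comm g h hd)
  simp only [map_mul, map_inv] at this
  exact mul_inv_eq_iff_eq_mul.1 (mul_inv_eq_one.1 this)

/-- A generator is a product of the generators of any finite partition of its set. -/
theorem ugen_mem_of_partition {ι : Type*} [DecidableEq ι] (H : Subgroup (UGroup S n))
    (s : Finset ι) (A : ι → Clo X) (hd : (s : Set ι).PairwiseDisjoint fun i => (A i : Set X))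
    (g : Gen X n) (hu : (g.U : Set X) = ⋃ i ∈ s, (A i : Set X))
    (hA : ∀ i ∈ s, ugen S (g.withU (A i)) ∈ H) : ugen S g ∈ H := by
  induction s using Finset.induction_on generalizing g with
  | empty =>
    rw [ugen_empty g (by simpa using hu)]
    exact one_mem _
  | @insert a s ha ih =>
    set B : Clo X := ⟨⋃ i ∈ s, (A i : Set X), isClopen_biUnion_finset fun i _ => (A i).isClopen⟩
    have hdis : Disjoint (A a : Set X) (B : Set X) := by
      simp only [B, TopologicalSpace.Clopens.coe_mk, Set.disjoint_iUnion_right]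
      intro i hi
      exact hd (Finset.mem_insert_self a s) (Finset.mem_insert_of_mem hi) (fun e => ha (e ▸ hi))
    rw [ugen_add g (A a) B hdis (by simpa [B] using hu)]
    refine mul_mem (hA a (Finset.mem_insert_self a s)) (ih (hd.subset (by simp)) (g.withU B) rfl ?_)
    exact fun i hi => hA i (Finset.mem_insert_of_mem hi)

/-- A generator is a product of its pieces on the fibres of a locally constant map. -/
theorem ugen_mem_of_fibres {α : Type*} [Finite α] (H : Subgroup (UGroup S n)) (g : Gen X n)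
    {f : X → α} (hf : IsLocallyConstant f)
    (hA : ∀ V : Clo X, (V : Set X) ⊆ (g.U : Set X) → (∀ x ∈ V, ∀ y ∈ V, f x = f y) →
      ugen S (g.withU V) ∈ H) : ugen S g ∈ H := by
  classical
  have := Fintype.ofFinite α
  refine ugen_mem_of_partition H Finset.univ
    (fun a => g.U ⊓ ⟨f ⁻¹' {a}, hf.isClopen_fiber a⟩) ?_ g ?_ ?_
  · intro a _ b _ hab
    exact Set.disjoint_left.2 fun x hx hx' => hab (hx.2.symm.trans hx'.2)
  · ext x
    simp only [SetLike.mem_coe, Finset.mem_univ, Set.iUnion_true, Set.mem_iUnion]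
    exact ⟨fun hx => ⟨f x, hx, rfl⟩, fun ⟨a, hx, _⟩ => hx⟩
  · intro a _
    exact hA _ (fun x hx => hx.1) fun x hx y hy => hx.2.trans hy.2.symm

end Vale.Agent.P196.Full
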