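import Vale.Agent.P196.Full.Universal.Conj

/-!
# P196: locally constant families on a frame
-/

namespace Vale.Agent.P196.Full

open Set

variable {X : Type} [TopologicalSpace X] {n : ℕ} {S : Sys X}

variable (S) in
/-- The generators supported below `V` on the offsets `L`. -/
def frameSubLe (V : Set X) (L : Finset Lat) : Subgroup (UGroup S n) :=
  Subgroup.closure (ugen S '' {g : Gen X n | (g.U : Set X) ⊆ V ∧ g.p.1 ∈ L ∧ g.q.1 ∈ L ∧ g.r.1 ∈ L})

theorem frameSubLe_mono {V V' : Set X} {L L' : Finset Lat} (hV : V ⊆ V') (hL : L ⊆ L') :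
    frameSubLe S V L (n := n) ≤ frameSubLe S V' L' :=
  Subgroup.closure_mono (Set.image_mono fun _ hg => ⟨hg.1.trans hV, hL hg.2.1, hL hg.2.2.1, hL hg.2.2.2⟩)

theorem frameSub_le_frameSubLe {V : Clo X} {L : Finset Lat} {W : Set X} (h : (V : Set X) ⊆ W) :
    frameSub S V L (n := n) ≤ frameSubLe S W L := by
  refine Subgroup.closure_mono (Set.image_mono fun g hg => ?_)
  rw [mem_frameGens] at hg
  exact ⟨by rw [hg.1]; exact h, hg.2⟩

/-- Shift invariance. -/
theorem frameSubLe_shift (V : Set X) (L : Finset Lat) (v : Lat) :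
    frameSubLe S (S.translate v V) (L.image fun a => a - v) (n := n) = frameSubLe S V L := by
  have key : ∀ (V : Set X) (L : Finset Lat) (v : Lat),
      frameSubLe S V L (n := n) ≤ frameSubLe S (S.translate v V) (L.image fun a => a - v) := by
    intro V L v
    refine (Subgroup.closure_le _).2 ?_
    rintro _ ⟨g, ⟨hU, hp, hq, hr⟩, rfl⟩
    rw [← ugen_move g v]
    exact Subgroup.subset_closure ⟨_, ⟨Set.preimage_mono hU, Finset.mem_image_of_mem _ hp,
      Finset.mem_image_of_mem _ hq, Finset.mem_image_of_mem _ hr⟩, rfl⟩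
  refine le_antisymm ?_ (key V L v)
  have h := key (S.translate v V) (L.image fun a => a - v) (-v)
  simp only [translate_translate, neg_add_cancel, translate_zero, Finset.image_image,
    Function.comp_def, sub_neg_eq_add, sub_add_cancel, Finset.image_id'] at h
  exact h

theorem ueval_frameSubLe_fix {V : Set X} {L : Finset Lat} {u : UGroup S n}
    (hu : u ∈ frameSubLe S V L) {z : Pt X n} (hz : z ∉ frameRegion S V L) : ueval S u z = z := by
  induction hu using Subgroup.closure_induction with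
  | mem x hx =>
    obtain ⟨g, ⟨hU, hp, hq, hr⟩, rfl⟩ := hx
    rw [ueval_ugen]
    refine g.perm_apply_of_notMem fun h => hz ?_
    obtain ⟨a, ha, -, hzU⟩ := (Gen.mem_supp_iff _ _).1 h
    rcases ha with rfl | rfl | rfl
    exacts [⟨_, hp, hU hzU⟩, ⟨_, hq, hU hzU⟩, ⟨_, hr, hU hzU⟩]
  | one => simp
  | mul x y _ _ hx hy => rw [map_mul, Equiv.Perm.mul_apply, hy, hx]
  | inv x _ hx => rw [map_inv]; exact (Equiv.symm_apply_eq _).2 hx.symm

theorem frameRegion_mono {V V' : Set X} {L L' : Finset Lat} (hV : V ⊆ V') (hL : L ⊆ L') :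
    frameRegion S V L (n := n) ⊆ frameRegion S V' L' := fun _ ⟨v, hv, h⟩ => ⟨v, hL hv, hV h⟩

theorem frameRegion_disjoint {V A B : Set X} {L : Finset Lat} (hsep : S.SepV V L) (hA : A ⊆ V)
    (hB : B ⊆ V) (hd : Disjoint A B) :
    Disjoint (frameRegion S A L (n := n)) (frameRegion S B L) := by
  refine Set.disjoint_left.2 ?_
  rintro z ⟨u, hu, hzA⟩ ⟨v, hv, hzB⟩
  by_cases huv : u = v
  · subst huv; exact Set.disjoint_left.1 hd hzA hzB
  · have h1 : z.1 ∈ S.translate u V := hA hzA
    have h2 : z.1 ∈ S.translate v V := hB hzB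
    exact Set.disjoint_left.1 (hsep u hu v hv huv) h1 h2

theorem commute_of_disjoint {V A B : Set X} {L : Finset Lat} (hsep : S.SepV V L) (hA : A ⊆ V)
    (hB : B ⊆ V) (hd : Disjoint A B) {a b : UGroup S n} (ha : a ∈ frameSubLe S A L)
    (hb : b ∈ frameSubLe S B L) : Commute a b := by
  induction ha using Subgroup.closure_induction with
  | one => exact Commute.one_left _
  | mul x y _ _ hx hy => exact hx.mul_left hy
  | inv x _ hx => exact hx.inv_left
  | mem x hx =>
    obtain ⟨g, hg, rfl⟩ := hx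
    induction hb using Subgroup.closure_induction with
    | one => exact Commute.one_right _
    | mul x y _ _ hx hy => exact hx.mul_right hy
    | inv x _ hx => exact hx.inv_right
    | mem x hx =>
      obtain ⟨h, hh, rfl⟩ := hx
      have key : ∀ (k : Gen X n) (W : Set X), (k.U : Set X) ⊆ W → k.p.1 ∈ L → k.q.1 ∈ L →
          k.r.1 ∈ L → k.supp S ⊆ frameRegion S W L := fun k W hU hp hq hr z hz => by
        obtain ⟨c, hc, -, hzU⟩ := (Gen.mem_supp_iff _ _).1 hz
        rcases hc with rfl | rfl | rfl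
        exacts [⟨_, hp, hU hzU⟩, ⟨_, hq, hU hzU⟩, ⟨_, hr, hU hzU⟩]
      exact ugen_commute g h ((frameRegion_disjoint hsep hA hB hd).mono
        (key g A hg.1 hg.2.1 hg.2.2.1 hg.2.2.2) (key h B hh.1 hh.2.1 hh.2.2.1 hh.2.2.2))

variable {α : Type} [Finite α]

/-- The piece of `V` on a fibre. -/
def fibrePiece (V : Clo X) {f : X → α} (hf : IsLocallyConstant f) (a : α) : Clo X :=
  ⟨(V : Set X) ∩ f ⁻¹' {a}, V.isClopen.inter (hf.isClopen_fiber a)⟩

variable (S) in
/-- The product of the frames over some fibres. -/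
def pieces (V : Clo X) {f : X → α} (hf : IsLocallyConstant f) (L : Finset Lat) (s : Finset α) :
    Subgroup (UGroup S n) :=
  ⨆ a ∈ s, frameSub S (fibrePiece V hf a) L

theorem pieces_le {V : Clo X} {f : X → α} (hf : IsLocallyConstant f) (L : Finset Lat)
    (s : Finset α) : pieces S V hf L s (n := n) ≤ frameSubLe S ((V : Set X) ∩ f ⁻¹' (s : Set α)) L :=
  iSup₂_le fun a ha => frameSub_le_frameSubLe fun _ hx => ⟨hx.1, by
    simp only [Set.mem_preimage]; rw [show f _ = a from hx.2]; exact ha⟩

theorem exists_mul_of_mem_sup {G : Type*} [Group G] {H K : Subgroup G}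
    (h : ∀ a ∈ H, ∀ b ∈ K, Commute a b) {u : G} (hu : u ∈ H ⊔ K) :
    ∃ a ∈ H, ∃ b ∈ K, u = a * b := by
  rw [← Subgroup.closure_eq H, ← Subgroup.closure_eq K, ← Subgroup.closure_union] at hu
  induction hu using Subgroup.closure_induction with
  | mem x hx =>
    rcases hx with hx | hx
    · exact ⟨x, hx, 1, one_mem _, (mul_one _).symm⟩
    · exact ⟨1, one_mem _, x, hx, (one_mul _).symm⟩
  | one => exact ⟨1, one_mem _, 1, one_mem _, (one_mul _).symm⟩
  | mul x y _ _ hx hy =>
    obtain ⟨a, ha, b, hb, rfl⟩ := hx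
    obtain ⟨c, hc, d, hd, rfl⟩ := hy
    exact ⟨a * c, mul_mem ha hc, b * d, mul_mem hb hd,
      by rw [mul_assoc, mul_assoc, ← mul_assoc b, ← (h c hc b hb).eq, mul_assoc]⟩
  | inv x _ hx =>
    obtain ⟨a, ha, b, hb, rfl⟩ := hx
    exact ⟨a⁻¹, inv_mem ha, b⁻¹, inv_mem hb, by rw [mul_inv_rev, ((h a ha b hb).inv_inv).eq]⟩

/-- Peeling off one fibre. -/
theorem exists_mul_pieces_insert [DecidableEq α] {V : Clo X} {f : X → α} (hf : IsLocallyConstant f)
    {L : Finset Lat} (hsep : S.SepV (V : Set X) L) {a : α} {s : Finset α} (ha : a ∉ s)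
    {u : UGroup S n} (hu : u ∈ pieces S V hf L (insert a s)) :
    ∃ b ∈ frameSub S (fibrePiece V hf a) L, ∃ w ∈ pieces S V hf L s, u = b * w ∧
      ∀ z, (ueval S b z ≠ z → ueval S u z ≠ z) ∧ (ueval S w z ≠ z → ueval S u z ≠ z) := by
  rw [pieces, Finset.iSup_insert] at hu
  have hd : Disjoint (fibrePiece V hf a : Set X) ((V : Set X) ∩ f ⁻¹' (s : Set α)) :=
    Set.disjoint_left.2 fun x hx hx' => ha (by
      have : f x = a := hx.2
      exact this ▸ hx'.2)
  obtain ⟨b, hb, w, hw, e⟩ := exists_mul_of_mem_sup (fun b hb w hw =>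
    commute_of_disjoint hsep (fun x hx => hx.1) Set.inter_subset_left hd
      (frameSub_le_frameSubLe le_rfl hb) (pieces_le hf L s hw)) hu
  refine ⟨b, hb, w, hw, e, fun z => ?_⟩
  have hR := Set.disjoint_left.1 (frameRegion_disjoint (n := n) hsep (fun x hx => hx.1)
    Set.inter_subset_left hd)
  have fb := fun z => ueval_frameSubLe_fix (frameSub_le_frameSubLe (W := (fibrePiece V hf a : Set X)) le_rfl hb) (z := z)
  have fw := fun z => ueval_frameSubLe_fix (pieces_le hf L s hw) (z := z)
  have fb' : ∀ z, ueval S b z ≠ z → z ∈ frameRegion S (fibrePiece V hf a : Set X) L := fun z h => by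
    by_contra hc; exact h (fb z hc)
  have fw' : ∀ z, ueval S w z ≠ z →
      z ∈ frameRegion S ((V : Set X) ∩ f ⁻¹' (s : Set α)) L := fun z h => by
    by_contra hc; exact h (fw z hc)
  rw [e, map_mul, Equiv.Perm.mul_apply]
  refine ⟨fun hz => ?_, fun hz => ?_⟩
  · rw [fw z fun h => hR (fb' z hz) h]; exact hz
  · have hwz : ueval S w (ueval S w z) ≠ ueval S w z := fun h => hz ((ueval S w).injective h)
    rw [fb _ fun h => hR h (fw' _ hwz)]; exact hz

/-- A generator whose set is a union of fibres lies in the product of the pieces. -/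
theorem ugen_mem_pieces [Fintype α] {V : Clo X} {f : X → α} (hf : IsLocallyConstant f)
    (L : Finset Lat) (g : Gen X n) (hV : (g.U : Set X) ⊆ V)
    (hU : ∀ x ∈ V, ∀ y ∈ V, f x = f y → x ∈ g.U → y ∈ g.U)
    (hp : g.p.1 ∈ L) (hq : g.q.1 ∈ L) (hr : g.r.1 ∈ L) :
    ugen S g ∈ pieces S V hf L Finset.univ := by
  classical
  refine ugen_mem_of_partition _ Finset.univ (fun a => fibrePiece g.U hf a) ?_ g ?_ fun a _ => ?_
  · intro a _ b _ hab
    exact Set.disjoint_left.2 fun x hx hx' => hab (hx.2.symm.trans hx'.2)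
  · ext x
    simp only [fibrePiece, TopologicalSpace.Clopens.coe_mk, Finset.mem_univ, Set.iUnion_true,
      Set.mem_iUnion, Set.mem_inter_iff, Set.mem_preimage, Set.mem_singleton_iff]
    exact ⟨fun h => ⟨f x, h, rfl⟩, fun ⟨_, h, _⟩ => h⟩
  · by_cases hne : ∃ x, x ∈ (g.U : Set X) ∧ f x = a
    · obtain ⟨x, hx, hxa⟩ := hne
      refine Subgroup.mem_iSup_of_mem a (Subgroup.mem_iSup_of_mem (Finset.mem_univ a) ?_)
      refine Subgroup.subset_closure ⟨g.withU (fibrePiece g.U hf a), mem_frameGens.2 ⟨?_, hp, hq, hr⟩, rfl⟩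
      refine TopologicalSpace.Clopens.ext (Set.ext fun y => ⟨fun hy => ⟨hV hy.1, hy.2⟩, fun hy => ?_⟩)
      exact ⟨hU x (hV hx) y hy.1 (hxa.trans (Eq.symm hy.2)) hx, hy.2⟩
    · rw [ugen_empty]
      · exact one_mem _
      · exact Set.eq_empty_iff_forall_notMem.2 fun x hx => hne ⟨x, hx.1, hx.2⟩

theorem pieces_refine [Fintype α] {β : Type} [Finite β] [Fintype β] {V : Clo X} {f : X → α}
    {k : X → β} (hf : IsLocallyConstant f) (hk : IsLocallyConstant k)
    (h : ∀ x y, f x = f y → k x = k y) (L : Finset Lat) :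
    pieces S V hk L Finset.univ (n := n) ≤ pieces S V hf L Finset.univ := by
  refine iSup₂_le fun b _ => (Subgroup.closure_le _).2 ?_
  rintro _ ⟨g, hg, rfl⟩
  rw [mem_frameGens] at hg
  refine ugen_mem_pieces hf L g (by rw [hg.1]; exact fun x hx => hx.1) (fun x hx y hy e hxg => ?_)
    hg.2.1 hg.2.2.1 hg.2.2.2
  rw [hg.1] at hxg ⊢
  exact ⟨hy, (h x y e).symm.trans hxg.2⟩

/-- Every element below `V` is a product of pieces on the fibres of a map as fine as desired. -/
theorem exists_pieces {V : Clo X} {L : Finset Lat} {u : UGroup S n}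
    (hu : u ∈ frameSubLe S (V : Set X) L) :
    ∀ {β : Type} [Finite β] {k : X → β}, IsLocallyConstant k →
      ∃ (α : Type) (_ : Fintype α) (f : X → α) (hf : IsLocallyConstant f),
        (∀ x y, f x = f y → k x = k y) ∧ u ∈ pieces S V hf L Finset.univ := by
  induction hu using Subgroup.closure_induction with
  | mem x hx =>
    obtain ⟨g, ⟨hU, hp, hq, hr⟩, rfl⟩ := hx
    intro β _ k hk
    classical
    have := Fintype.ofFinite β
    have hg : IsLocallyConstant fun x => decide (x ∈ (g.U : Set X)) := by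
      refine (IsLocallyConstant.iff_isOpen_fiber).2 fun b => ?_
      cases b
      · simpa [Set.preimage, Set.compl_def] using g.U.isClopen.compl.isOpen
      · simpa [Set.preimage] using g.U.isClopen.isOpen
    refine ⟨β × Bool, inferInstance, fun x => (k x, decide (x ∈ (g.U : Set X))), hk.prodMk hg,
      fun x y e => congrArg Prod.fst e, ugen_mem_pieces _ L g hU (fun x _ y _ e hx => ?_) hp hq hr⟩
    have := congrArg Prod.snd e
    simp only [decide_eq_decide] at this
    exact this.1 hx
  | one =>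
    intro β _ k hk
    exact ⟨β, Fintype.ofFinite β, k, hk, fun _ _ => id, one_mem _⟩
  | inv x _ hx =>
    intro β _ k hk
    obtain ⟨α, _, f, hf, h, hm⟩ := hx hk
    exact ⟨α, inferInstance, f, hf, h, inv_mem hm⟩
  | mul x y _ _ hx hy =>
    intro β _ k hk
    obtain ⟨α, _, f, hf, h, hm⟩ := hx hk
    obtain ⟨α', _, f', hf', h', hm'⟩ := hy hf
    exact ⟨α', inferInstance, f', hf', fun a b e => h a b (h' a b e),
      mul_mem (pieces_refine hf' hf h' L hm) hm'⟩

/-- Evaluation is injective below a separated set. -/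
theorem frameSubLe_eq_one {V : Clo X} {L : Finset Lat} (hsep : S.SepV (V : Set X) L)
    {u : UGroup S n} (hu : u ∈ frameSubLe S (V : Set X) L) (h : ueval S u = 1) : u = 1 := by
  classical
  obtain ⟨α, _, f, hf, -, hu⟩ := exists_pieces hu (IsLocallyConstant.const ())
  revert h hu u
  suffices ∀ s : Finset α, ∀ u ∈ pieces S V hf L s (n := n), ueval S u = 1 → u = 1 from
    fun {u} _ h hu => this _ u hu h
  intro s
  induction s using Finset.induction_on with
  | empty =>
    intro u hu _
    simpa [pieces] using hu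
  | @insert a s ha ih =>
    intro u hu h
    obtain ⟨b, hb, w, hw, rfl, hz⟩ := exists_mul_pieces_insert hf hsep ha hu
    have eb : ueval S b = 1 := Equiv.ext fun z => by
      by_contra hc; exact (hz z).1 hc (by rw [h]; rfl)
    have ew : ueval S w = 1 := Equiv.ext fun z => by
      by_contra hc; exact (hz z).2 hc (by rw [h]; rfl)
    rw [frameSub_eq_one (hsep.mono Set.inter_subset_left le_rfl) hb eb, ih w hw ew, one_mul]

/-- An element below a separated set commutes with everything that moves other points. -/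
theorem commute_of_moved (T : Tower S) {V : Clo X} {L : Finset Lat}
    (hsep : S.SepV (V : Set X) L) {u x : UGroup S n} (hu : u ∈ frameSubLe S (V : Set X) L)
    (hd : ∀ z, ueval S u z = z ∨ ueval S x z = z) : Commute u x := by
  classical
  obtain ⟨β, _, k, hk, hconj⟩ := exists_fine_conj T x L
  obtain ⟨α, _, f, hf, hfk, hu⟩ := exists_pieces hu hk
  revert hd hu u
  suffices ∀ s : Finset α, ∀ u ∈ pieces S V hf L s (n := n),
      (∀ z, ueval S u z = z ∨ ueval S x z = z) → Commute u x from
    fun {u} _ hd hu => this _ u hu hd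
  intro s
  induction s using Finset.induction_on with
  | empty =>
    intro u hu _
    rw [show u = 1 by simpa [pieces] using hu]
    exact Commute.one_left _
  | @insert a s ha ih =>
    intro u hu hd
    obtain ⟨b, hb, w, hw, rfl, hz⟩ := exists_mul_pieces_insert hf hsep ha hu
    refine Commute.mul_left ?_ (ih w hw fun z => (hd z).imp_left fun h => ?_)
    · refine (hconj _ (show ConstOn k (fibrePiece V hf a : Set X) from
        fun p hp q hq => hfk p q (Eq.trans hp.2 (Eq.symm hq.2))) b hb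
        (Equiv.Perm.Disjoint.commute fun z => ?_)).symm
      by_cases hc : ueval S b z = z
      · exact Or.inr hc
      · exact Or.inl ((hd z).resolve_left ((hz z).1 hc))
    · by_contra hc; exact (hz z).2 hc h

/-- Every locally constant family of even permutations of a separated frame is realised. -/
theorem exists_family {V : Clo X} {L : Finset Lat} (hsep : S.SepV (V : Set X) L) (hn : 4 ≤ n)
    {φ : X → alternatingGroup (↥L × Fin n)} (hφ : IsLocallyConstant φ) :
    ∃ u ∈ frameSubLe S (V : Set X) L (n := n),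
      (∀ x ∈ V, ∀ a : ↥L × Fin n, ueval S u (S.sh a.1 x, a.2) =
        (S.sh ((φ x : Equiv.Perm (↥L × Fin n)) a).1 x, ((φ x : Equiv.Perm (↥L × Fin n)) a).2)) ∧
      ∀ z, z ∉ frameRegion S (V : Set X) L → ueval S u z = z := by
  classical
  suffices ∀ s : Finset (alternatingGroup (↥L × Fin n)),
      ∃ u ∈ frameSubLe S ((V : Set X) ∩ φ ⁻¹' (s : Set _)) L (n := n), ∀ x ∈ V, φ x ∈ s →
        ∀ a : ↥L × Fin n, ueval S u (S.sh a.1 x, a.2) =
          (S.sh ((φ x : Equiv.Perm (↥L × Fin n)) a).1 x,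
            ((φ x : Equiv.Perm (↥L × Fin n)) a).2) by
    obtain ⟨u, hu, h⟩ := this Finset.univ
    exact ⟨u, frameSubLe_mono Set.inter_subset_left le_rfl hu,
      fun x hx a => h x hx (Finset.mem_univ _) a, fun z hz =>
      ueval_frameSubLe_fix (frameSubLe_mono Set.inter_subset_left le_rfl hu) hz⟩
  intro s
  induction s using Finset.induction_on with
  | empty => exact ⟨1, one_mem _, fun x _ h => absurd h (Finset.notMem_empty _)⟩
  | @insert σ s hσ ih =>
    obtain ⟨w, hw, hweq⟩ := ih
    set A := fibrePiece V hφ σ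
    have hA : S.SepV (A : Set X) L := hsep.mono Set.inter_subset_left le_rfl
    have hsub : ∀ t : Finset (alternatingGroup (↥L × Fin n)), t ⊆ insert σ s →
        (V : Set X) ∩ φ ⁻¹' (t : Set _) ⊆ (V : Set X) ∩ φ ⁻¹' ((insert σ s : Finset _) : Set _) :=
      fun t ht x hx => ⟨hx.1, ht hx.2⟩
    have hAs : (A : Set X) ⊆ (V : Set X) ∩ φ ⁻¹' ((insert σ s : Finset _) : Set _) := fun x hx =>
      ⟨hx.1, by
        show φ x ∈ ((insert σ s : Finset _) : Set _)
        rw [show φ x = σ from hx.2]; exact Finset.mem_insert_self _ _⟩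
    refine ⟨frameHom hA hn σ * w, mul_mem (frameSub_le_frameSubLe hAs (frameHom_mem hA hn σ))
      (frameSubLe_mono (hsub s (Finset.subset_insert _ _)) le_rfl hw), fun x hx hφx a => ?_⟩
    rw [map_mul, Equiv.Perm.mul_apply]
    have out : ∀ (W : Set X) (b : ↥L × Fin n), W ⊆ (V : Set X) → x ∉ W →
        ((S.sh b.1 x, b.2) : Pt X n) ∉ frameRegion S W L := by
      rintro W b hW hxW ⟨v, hv, hvW⟩
      by_cases e : v = (b.1 : Lat)
      · subst e
        exact hxW (by simpa only [S.sh_neg_cancel] using hvW)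
      · have h1 : S.sh b.1 x ∈ S.translate b.1 (V : Set X) := by
          rw [Sys.mem_translate, S.sh_neg_cancel]; exact hx
        exact Set.disjoint_left.1 (hsep v hv b.1 b.1.2 e) (hW hvW) h1
    by_cases e : φ x = σ
    · rw [ueval_frameSubLe_fix hw (out _ a Set.inter_subset_left fun h => hσ (e ▸ h.2)),
        ueval_frameHom, framePerm_apply hA _ a ⟨x, hx, e⟩, e]
    · have hs : φ x ∈ s := (Finset.mem_insert.1 hφx).resolve_left e
      rw [hweq x hx hs a, ueval_frameSubLe_fix (frameSub_le_frameSubLe le_rfl (frameHom_mem hA hn σ))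
        (out _ _ (fun y hy => hy.1) fun h => e h.2)]

/-- Conjugation only depends on the evaluation. -/
theorem conj_eq_of_ueval_eq (T : Tower S) {u v : UGroup S n} (h : ueval S u = ueval S v)
    (x : UGroup S n) : u * x * u⁻¹ = v * x * v⁻¹ := by
  have hk : v⁻¹ * u ∈ Subgroup.center (UGroup S n) :=
    ker_central T (by rw [map_mul, map_inv, h, inv_mul_cancel])
  have e := Subgroup.mem_center_iff.1 hk x
  calc u * x * u⁻¹ = v * ((v⁻¹ * u) * x) * u⁻¹ := by group
    _ = v * (x * (v⁻¹ * u)) * u⁻¹ := by rw [e]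
    _ = v * x * v⁻¹ := by group

end Vale.Agent.P196.Full
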