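import Vale.Agent.P196.Full.Universal.Eval
import Mathlib.GroupTheory.Perm.ViaEmbedding

/-!
# P196: frames: finite alternating groups inside the universal group
-/

namespace Vale.Agent.P196.Full

open Set

variable {X : Type} [TopologicalSpace X] {n : ℕ} {S : Sys X}

/-- The three-cycle `a ↦ b ↦ c ↦ a`. -/
def cyc3 {α : Type*} [DecidableEq α] (a b c : α) : Equiv.Perm α := Equiv.swap a b * Equiv.swap b c

section cyc3

variable {α : Type*} [DecidableEq α] {a b c d x : α}

theorem cyc3_fst (h1 : a ≠ b) (h2 : a ≠ c) : cyc3 a b c a = b := by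
  simp [cyc3, Equiv.swap_apply_of_ne_of_ne h1 h2]

theorem cyc3_snd (h2 : a ≠ c) (h3 : b ≠ c) : cyc3 a b c b = c := by
  simp [cyc3, Equiv.swap_apply_of_ne_of_ne h2.symm h3.symm]

theorem cyc3_trd : cyc3 a b c c = a := by
  simp [cyc3]

theorem cyc3_of_ne (ha : x ≠ a) (hb : x ≠ b) (hc : x ≠ c) : cyc3 a b c x = x := by
  simp [cyc3, Equiv.swap_apply_of_ne_of_ne hb hc, Equiv.swap_apply_of_ne_of_ne ha hb]

theorem conj_cyc3 (k : Equiv.Perm α) : k * cyc3 a b c * k⁻¹ = cyc3 (k a) (k b) (k c) := by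
  simp only [cyc3, Equiv.swap_apply_apply, mul_assoc, inv_mul_cancel_left]

theorem cyc3_mul (hab : a ≠ b) (hac : a ≠ c) (hbc : b ≠ c) (hda : d ≠ a) (hdb : d ≠ b)
    (hdc : d ≠ c) : cyc3 a b d * cyc3 b c d = cyc3 a b c := by
  refine Equiv.ext fun x => ?_
  by_cases hxa : x = a
  · subst hxa
    rw [Equiv.Perm.mul_apply, cyc3_of_ne hab hac hda.symm, cyc3_fst hab hda.symm,
      cyc3_fst hab hac]
  by_cases hxb : x = b
  · subst hxb
    rw [Equiv.Perm.mul_apply, cyc3_fst hbc hdb.symm, cyc3_of_ne hac.symm hbc.symm hdc.symm,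
      cyc3_snd hac hbc]
  by_cases hxc : x = c
  · subst hxc
    rw [Equiv.Perm.mul_apply, cyc3_snd hdb.symm hdc.symm, cyc3_trd, cyc3_trd]
  by_cases hxd : x = d
  · subst hxd
    rw [Equiv.Perm.mul_apply, cyc3_trd, cyc3_snd hda.symm hdb.symm, cyc3_of_ne hxa hxb hxc]
  rw [Equiv.Perm.mul_apply, cyc3_of_ne hxb hxc hxd, cyc3_of_ne hxa hxb hxd,
    cyc3_of_ne hxa hxb hxc]

theorem exists_cyc3 [Fintype α] {σ : Equiv.Perm α} (h : σ.IsThreeCycle) :
    ∃ a b c, a ≠ b ∧ a ≠ c ∧ b ≠ c ∧ σ = cyc3 a b c := by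
  obtain ⟨x, y, z, hxy, hxz, hyz, hs⟩ := Finset.card_eq_three.1 h.card_support
  have hmem : ∀ w, σ w ≠ w ↔ w = x ∨ w = y ∨ w = z := fun w => by
    rw [← Equiv.Perm.mem_support, hs]; simp
  have hin : ∀ w, (w = x ∨ w = y ∨ w = z) → σ w = x ∨ σ w = y ∨ σ w = z := fun w hw =>
    (hmem _).1 fun e => (hmem w).2 hw (σ.injective e)
  have hfix : ∀ w, w ≠ x → w ≠ y → w ≠ z → σ w = w := fun w a b c => by
    by_contra e
    rcases (hmem w).1 e with r | r | r
    exacts [a r, b r, c r]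
  have nx := (hmem x).2 (Or.inl rfl)
  have ny := (hmem y).2 (Or.inr (Or.inl rfl))
  have nz := (hmem z).2 (Or.inr (Or.inr rfl))
  have ixy : σ x ≠ σ y := fun e => hxy (σ.injective e)
  have ixz : σ x ≠ σ z := fun e => hxz (σ.injective e)
  have iyz : σ y ≠ σ z := fun e => hyz (σ.injective e)
  have main : (σ x = y ∧ σ y = z ∧ σ z = x) ∨ (σ x = z ∧ σ z = y ∧ σ y = x) := by
    rcases hin x (Or.inl rfl) with e1 | e1 | e1 <;> rcases hin y (Or.inr (Or.inl rfl)) with e2 | e2 | e2 <;>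
      rcases hin z (Or.inr (Or.inr rfl)) with e3 | e3 | e3 <;> simp_all
  rcases main with ⟨e1, e2, e3⟩ | ⟨e1, e2, e3⟩
  · refine ⟨x, y, z, hxy, hxz, hyz, Equiv.ext fun w => ?_⟩
    by_cases wx : w = x
    · rw [wx, e1, cyc3_fst hxy hxz]
    by_cases wy : w = y
    · rw [wy, e2, cyc3_snd hxz hyz]
    by_cases wz : w = z
    · rw [wz, e3, cyc3_trd]
    rw [hfix w wx wy wz, cyc3_of_ne wx wy wz]
  · refine ⟨x, z, y, hxz, hxy, hyz.symm, Equiv.ext fun w => ?_⟩
    by_cases wx : w = x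
    · rw [wx, e1, cyc3_fst hxz hxy]
    by_cases wz : w = z
    · rw [wz, e2, cyc3_snd hxy hyz.symm]
    by_cases wy : w = y
    · rw [wy, e3, cyc3_trd]
    rw [hfix w wx wy wz, cyc3_of_ne wx wz wy]

/-- The alternating group of a coloured set is generated by three-cycles with three colours. -/
theorem alternating_le_closure_colour {L : Type*} [Fintype L] [DecidableEq L] (hn : 4 ≤ n) :
    alternatingGroup (L × Fin n) ≤ Subgroup.closure
      {σ | ∃ a b c : L × Fin n, a.2 ≠ b.2 ∧ b.2 ≠ c.2 ∧ a.2 ≠ c.2 ∧ σ = cyc3 a b c} := by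
  set H := Subgroup.closure
    {σ | ∃ a b c : L × Fin n, a.2 ≠ b.2 ∧ b.2 ≠ c.2 ∧ a.2 ≠ c.2 ∧ σ = cyc3 a b c}
  have h3 : ∀ a b c : L × Fin n, a.2 ≠ b.2 → b.2 ≠ c.2 → a.2 ≠ c.2 → cyc3 a b c ∈ H :=
    fun a b c h1 h2 h3 => Subgroup.subset_closure ⟨a, b, c, h1, h2, h3, rfl⟩
  have avoid : ∀ s : Finset (Fin n), s.card ≤ 3 → ∃ d, d ∉ s := fun s hs => by
    by_contra hall
    push Not at hall
    have := Finset.card_le_card (fun d _ => hall d : (Finset.univ : Finset (Fin n)) ⊆ s)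
    simp at this
    omega
  -- one repeated colour
  have h2 : ∀ a b d : L × Fin n, a ≠ b → a.2 ≠ d.2 → b.2 ≠ d.2 → cyc3 a b d ∈ H := by
    intro a b d hab had hbd
    by_cases hc : a.2 = b.2
    · obtain ⟨u, hu⟩ := avoid {a.2, d.2} (le_trans (Finset.card_insert_le _ _) (by simp))
      obtain ⟨w, hw⟩ := avoid {a.2, d.2, u} (le_trans (Finset.card_insert_le _ _)
        (Nat.succ_le_succ (le_trans (Finset.card_insert_le _ _) (by simp))))
      simp only [Finset.mem_insert, Finset.mem_singleton, not_or] at hu hw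
      -- `k` sends `u' ↦ b` and fixes `a` and `d`
      set U : L × Fin n := (a.1, u)
      set W : L × Fin n := (a.1, w)
      have hk : cyc3 U b W ∈ H := h3 U b W (fun e => hu.1 (e.trans hc.symm))
        (fun e => hw.1 (e.symm.trans hc.symm)) (fun e => hw.2.2 e.symm)
      have hUb : U ≠ b := fun e => hu.1 ((congrArg Prod.snd e).trans hc.symm)
      have hUW : U ≠ W := fun e => hw.2.2 (congrArg Prod.snd e).symm
      have e : cyc3 U b W * cyc3 a U d * (cyc3 U b W)⁻¹ = cyc3 a b d := by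
        rw [conj_cyc3, cyc3_fst hUb hUW,
          cyc3_of_ne (fun e => hu.1 (congrArg Prod.snd e).symm) hab
            (fun e => hw.1 (congrArg Prod.snd e).symm),
          cyc3_of_ne (fun e => hu.2 (congrArg Prod.snd e).symm)
            (fun e => hbd (congrArg Prod.snd e).symm)
            (fun e => hw.2.1 (congrArg Prod.snd e).symm)]
      rw [← e]
      exact mul_mem (mul_mem hk (h3 a U d (fun e => hu.1 e.symm) hu.2 had)) (inv_mem hk)
    · exact h3 a b d hc hbd had
  rw [← Equiv.Perm.closure_three_cycles_eq_alternating]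
  refine (Subgroup.closure_le _).2 fun σ hσ => ?_
  obtain ⟨a, b, c, hab, hac, hbc, rfl⟩ := exists_cyc3 hσ
  obtain ⟨k, hk⟩ := avoid {a.2, b.2, c.2} (le_trans (Finset.card_insert_le _ _)
    (Nat.succ_le_succ (le_trans (Finset.card_insert_le _ _) (by simp))))
  simp only [Finset.mem_insert, Finset.mem_singleton, not_or] at hk
  set d : L × Fin n := (a.1, k)
  rw [← cyc3_mul (d := d) hab hac hbc (fun e => hk.1 (congrArg Prod.snd e))
    (fun e => hk.2.1 (congrArg Prod.snd e)) (fun e => hk.2.2 (congrArg Prod.snd e))]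
  exact mul_mem (h2 a b d hab (fun e => hk.1 e.symm) (fun e => hk.2.1 e.symm))
    (h2 b c d hbc (fun e => hk.2.1 e.symm) (fun e => hk.2.2 e.symm))

end cyc3

variable (S)

/-- The translates of `V` along `L` are pairwise disjoint. -/
def Sys.SepV (V : Set X) (L : Finset Lat) : Prop :=
  ∀ u ∈ L, ∀ v ∈ L, u ≠ v → Disjoint (S.translate u V) (S.translate v V)

/-- The region of the frame `(V, L)`. -/
def frameRegion (V : Set X) (L : Finset Lat) : Set (Pt X n) :=
  {z | ∃ v ∈ L, S.sh (-v) z.1 ∈ V}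

/-- The subgroup of the frame `(V, L)`: all colours. -/
def frameSub (V : Clo X) (L : Finset Lat) : Subgroup (UGroup S n) :=
  Subgroup.closure (ugen S '' frameGens V (L ×ˢ Finset.univ))

variable {S}

theorem Sys.SepV.mono {V V' : Set X} {L L' : Finset Lat} (h : S.SepV V L) (hV : V' ⊆ V)
    (hL : L' ⊆ L) : S.SepV V' L' :=
  fun u hu v hv huv => (h u (hL hu) v (hL hv) huv).mono (Set.preimage_mono hV) (Set.preimage_mono hV)

theorem Sys.SepV.separated {V : Set X} {L : Finset Lat} (h : S.SepV V L) :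
    S.Separated V (L ×ˢ (Finset.univ : Finset (Fin n))) := by
  intro p hp q hq hpq hcol
  exact h p.1 (Finset.mem_product.1 hp).1 q.1 (Finset.mem_product.1 hq).1
    fun e => hpq (Prod.ext e hcol)

theorem mem_frameGens {V : Clo X} {L : Finset Lat} {g : Gen X n} :
    g ∈ frameGens V (L ×ˢ Finset.univ) ↔ g.U = V ∧ g.p.1 ∈ L ∧ g.q.1 ∈ L ∧ g.r.1 ∈ L := by
  simp [frameGens, Finset.mem_product]

theorem frameSub_mono (V : Clo X) {L L' : Finset Lat} (h : L ⊆ L') :
    frameSub S V L (n := n) ≤ frameSub S V L' := by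
  refine Subgroup.closure_mono (Set.image_mono fun g hg => ?_)
  rw [mem_frameGens] at hg ⊢
  exact ⟨hg.1, h hg.2.1, h hg.2.2.1, h hg.2.2.2⟩

/-- Evaluation is injective on a separated frame. -/
theorem frameSub_eq_one {V : Clo X} {L : Finset Lat} (hsep : S.SepV (V : Set X) L)
    {u : UGroup S n} (hu : u ∈ frameSub S V L) (h : ueval S u = 1) : u = 1 := by
  have e : frameSub S V L (n := n) = (Subgroup.closure
      (FreeGroup.of '' frameGens V (L ×ˢ Finset.univ))).map
      (PresentedGroup.mk {w : FreeGroup (Gen X n) | URel S w}) := by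
    rw [MonoidHom.map_closure, ← Set.image_comp]; rfl
  rw [e, Subgroup.mem_map] at hu
  obtain ⟨w, hw, rfl⟩ := hu
  exact mk_eq_one_of_urel (URel.frame V _ hsep.separated w hw h)

theorem frameSub_ext {V : Clo X} {L : Finset Lat} (hsep : S.SepV (V : Set X) L)
    {u u' : UGroup S n} (hu : u ∈ frameSub S V L) (hu' : u' ∈ frameSub S V L)
    (h : ueval S u = ueval S u') : u = u' :=
  mul_inv_eq_one.1 (frameSub_eq_one hsep (mul_mem hu (inv_mem hu'))
    (by rw [map_mul, map_inv, h, mul_inv_cancel]))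

/-- A generator disjoint from a frame commutes with it. -/
theorem commute_frameSub {V : Clo X} {L : Finset Lat} {g : Gen X n}
    (hd : Disjoint (g.supp S) (frameRegion S (V : Set X) L)) {u : UGroup S n}
    (hu : u ∈ frameSub S V L) : Commute (ugen S g) u := by
  refine (Subgroup.mem_centralizer_singleton_iff.1 ((Subgroup.closure_le _).2 ?_ hu)).symm
  rintro _ ⟨h, hh, rfl⟩
  refine Subgroup.mem_centralizer_singleton_iff.2 ?_
  rw [mem_frameGens] at hh
  refine (ugen_commute g h (hd.mono_right fun z hz => ?_)).eq.symm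
  rw [Gen.mem_supp_iff, hh.1] at hz
  obtain ⟨a, ha, -, hz⟩ := hz
  rcases ha with rfl | rfl | rfl
  exacts [⟨_, hh.2.1, hz⟩, ⟨_, hh.2.2.1, hz⟩, ⟨_, hh.2.2.2, hz⟩]

/-- The amplified copies of the frame. -/
def frameEmb {V : Set X} {L : Finset Lat} (h : S.SepV V L) :
    ((↥L × Fin n) × ↥V) ↪ Pt X n where
  toFun z := (S.sh z.1.1 z.2, z.1.2)
  inj' := by
    rintro ⟨⟨v, c⟩, x⟩ ⟨⟨w, d⟩, y⟩ e
    simp only [Prod.mk.injEq] at e
    obtain ⟨e, rfl⟩ := e
    have hvw : (v : Lat) = w := by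
      by_contra hne
      have h1 : S.sh v x ∈ S.translate v V := by rw [Sys.mem_translate, S.sh_neg_cancel]; exact x.2
      have h2 : S.sh v x ∈ S.translate w V := by
        rw [e, Sys.mem_translate, S.sh_neg_cancel]; exact y.2
      exact Set.disjoint_left.1 (h v v.2 w w.2 hne) h1 h2
    obtain rfl := Subtype.ext hvw
    obtain rfl := Subtype.ext ((S.sh v).injective e)
    rfl

/-- The permutation of the amplified points given by a permutation of the frame. -/
noncomputable def framePerm {V : Set X} {L : Finset Lat} (h : S.SepV V L) :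
    Equiv.Perm (↥L × Fin n) →* Equiv.Perm (Pt X n) :=
  (Equiv.Perm.viaEmbeddingHom (frameEmb h)).comp
    { toFun := fun σ => Equiv.prodCongr σ (Equiv.refl _)
      map_one' := Equiv.ext fun _ => rfl
      map_mul' := fun _ _ => Equiv.ext fun _ => rfl }

theorem framePerm_apply {V : Set X} {L : Finset Lat} (h : S.SepV V L) (σ : Equiv.Perm (↥L × Fin n))
    (a : ↥L × Fin n) (x : ↥V) :
    framePerm h σ (S.sh a.1 x, a.2) = (S.sh (σ a).1 x, (σ a).2) :=
  Equiv.Perm.viaEmbedding_apply _ (frameEmb h) (a, x)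

theorem framePerm_apply_of_notMem {V : Set X} {L : Finset Lat} (h : S.SepV V L)
    (σ : Equiv.Perm (↥L × Fin n)) {z : Pt X n} (hz : z ∉ frameRegion S V L) :
    framePerm h σ z = z := by
  refine Equiv.Perm.viaEmbedding_apply_of_notMem _ (frameEmb h) _ fun hr => hz ?_
  obtain ⟨⟨⟨v, c⟩, x⟩, rfl⟩ := hr
  refine ⟨v, v.2, ?_⟩
  show S.sh (-(v : Lat)) (S.sh v x) ∈ V
  rw [S.sh_neg_cancel]; exact x.2

/-- A generator of a frame as a permutation of the frame. -/
theorem perm_eq_framePerm {V : Clo X} {L : Finset Lat} (h : S.SepV (V : Set X) L)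
    (p q r : ↥L × Fin n) (g : Gen X n) (hU : g.U = V) (hp : g.p = (↑p.1, p.2))
    (hq : g.q = (↑q.1, q.2)) (hr : g.r = (↑r.1, r.2)) :
    g.perm S = framePerm h (cyc3 p q r) := by
  obtain ⟨U, P, Q, R, t⟩ := g
  simp only at hU hp hq hr
  subst hU hp hq hr
  have t1 : p ≠ q := fun e => t.1 (by rw [e])
  have t2 : q ≠ r := fun e => t.2.1 (by rw [e])
  have t3 : p ≠ r := fun e => t.2.2 (by rw [e])
  refine Equiv.ext fun z => ?_
  show S.cycFun U _ _ _ z = _
  obtain ⟨x, c⟩ := z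
  by_cases hz : ((x, c) : Pt X n) ∈ frameRegion S (U : Set X) L
  · obtain ⟨v, hv, hx⟩ := hz
    have hxe : x = S.sh v (S.sh (-v) x) := by rw [S.sh_sh, add_neg_cancel, S.sh_zero]
    generalize hy : S.sh (-v) x = y at hx hxe
    subst hxe
    rw [framePerm_apply h (cyc3 p q r) (⟨v, hv⟩, c) ⟨y, hx⟩]
    have at' : ∀ a : ↥L × Fin n, c = a.2 → S.sh (-(a.1 : Lat)) (S.sh v y) ∈ (U : Set X) →
        (⟨v, hv⟩, c) = a := by
      intro a hc hU
      refine Prod.ext (Subtype.ext ?_) hc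
      by_contra hne
      have h1 : S.sh v y ∈ S.translate v (U : Set X) := by
        rw [Sys.mem_translate, S.sh_neg_cancel]; exact hx
      exact Set.disjoint_left.1 (h v hv a.1 a.1.2 hne) h1 hU
    by_cases hp : (⟨v, hv⟩, c) = p
    · subst hp
      rw [S.cycFun_fst rfl (by rwa [S.sh_neg_cancel]), cyc3_fst t1 t3]
      simp [S.sh_sh]
    by_cases hq : (⟨v, hv⟩, c) = q
    · subst hq
      rw [S.cycFun_snd t rfl (by rwa [S.sh_neg_cancel]), cyc3_snd t3 t2]
      simp [S.sh_sh]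
    by_cases hr : (⟨v, hv⟩, c) = r
    · subst hr
      rw [S.cycFun_trd t rfl (by rwa [S.sh_neg_cancel]), cyc3_trd]
      simp [S.sh_sh]
    rw [cyc3_of_ne hp hq hr, S.cycFun_none (fun e e' => hp (at' p e e'))
      (fun e e' => hq (at' q e e')) (fun e e' => hr (at' r e e'))]
  · rw [framePerm_apply_of_notMem h _ hz]
    refine S.cycFun_none ?_ ?_ ?_ <;> intro _ e
    exacts [hz ⟨_, p.1.2, e⟩, hz ⟨_, q.1.2, e⟩, hz ⟨_, r.1.2, e⟩]

theorem map_frameSub_ge {V : Clo X} {L : Finset Lat} (h : S.SepV (V : Set X) L) (hn : 4 ≤ n) :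
    (alternatingGroup (↥L × Fin n)).map (framePerm h) ≤ (frameSub S V L).map (ueval S) := by
  refine (Subgroup.map_mono (alternating_le_closure_colour hn)).trans ?_
  rw [MonoidHom.map_closure, Subgroup.closure_le]
  rintro _ ⟨σ, ⟨a, b, c, h1, h2, h3, rfl⟩, rfl⟩
  set g : Gen X n := ⟨V, (a.1, a.2), (b.1, b.2), (c.1, c.2), ⟨h1, h2, h3⟩⟩
  refine ⟨ugen S g, Subgroup.subset_closure ⟨g, mem_frameGens.2 ⟨rfl, a.1.2, b.1.2, c.1.2⟩, rfl⟩, ?_⟩
  rw [ueval_ugen, perm_eq_framePerm h a b c g rfl rfl rfl rfl]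

/-- The homomorphism of the alternating group of a separated frame to the universal group. -/
noncomputable def frameHom {V : Clo X} {L : Finset Lat} (h : S.SepV (V : Set X) L) (hn : 4 ≤ n) :
    alternatingGroup (↥L × Fin n) →* UGroup S n where
  toFun σ := Classical.choose (map_frameSub_ge h hn (Subgroup.mem_map_of_mem _ σ.2))
  map_one' := by
    obtain ⟨h1, h2⟩ := Classical.choose_spec (map_frameSub_ge h hn
      (Subgroup.mem_map_of_mem _ (1 : alternatingGroup (↥L × Fin n)).2))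
    exact frameSub_eq_one h h1 (h2.trans (map_one (framePerm h)))
  map_mul' σ τ := by
    obtain ⟨h1, h2⟩ := Classical.choose_spec (map_frameSub_ge h hn
      (Subgroup.mem_map_of_mem _ (σ * τ).2))
    obtain ⟨s1, s2⟩ := Classical.choose_spec (map_frameSub_ge h hn
      (Subgroup.mem_map_of_mem _ σ.2))
    obtain ⟨t1, t2⟩ := Classical.choose_spec (map_frameSub_ge h hn
      (Subgroup.mem_map_of_mem _ τ.2))
    refine frameSub_ext h h1 (mul_mem s1 t1) ?_
    rw [map_mul, s2, t2, h2]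
    exact map_mul (framePerm h) _ _

theorem frameHom_mem {V : Clo X} {L : Finset Lat} (h : S.SepV (V : Set X) L) (hn : 4 ≤ n)
    (σ : alternatingGroup (↥L × Fin n)) : frameHom h hn σ ∈ frameSub S V L :=
  (Classical.choose_spec (map_frameSub_ge h hn (Subgroup.mem_map_of_mem _ σ.2))).1

theorem ueval_frameHom {V : Clo X} {L : Finset Lat} (h : S.SepV (V : Set X) L) (hn : 4 ≤ n)
    (σ : alternatingGroup (↥L × Fin n)) :
    ueval S (frameHom h hn σ) = framePerm h (σ : Equiv.Perm (↥L × Fin n)) :=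
  (Classical.choose_spec (map_frameSub_ge h hn (Subgroup.mem_map_of_mem _ σ.2))).2

theorem frameHom_eq_iff {V : Clo X} {L : Finset Lat} (h : S.SepV (V : Set X) L) (hn : 4 ≤ n)
    (σ : alternatingGroup (↥L × Fin n)) {u : UGroup S n} (hu : u ∈ frameSub S V L) :
    u = frameHom h hn σ ↔ ueval S u = framePerm h (σ : Equiv.Perm (↥L × Fin n)) :=
  ⟨fun e => e ▸ ueval_frameHom h hn σ,
    fun e => frameSub_ext h hu (frameHom_mem h hn σ) (e.trans (ueval_frameHom h hn σ).symm)⟩

end Vale.Agent.P196.Full
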