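import Vale.Agent.P196.Full.Defs

/-!
# P196: parities along coarse edges take boundedly many values

For a sparse tower and any finite family of mod-2 observations, the vectors of sums along the
edges of a sufficiently coarse grid span a space of bounded dimension, the bound being
independent of the family: on a fault such a sum is determined by the shapes at the two ends and
in the middle of a coarse cell.
-/

namespace Vale.Agent.P196.Full

namespace Tower

variable {X : Type} [TopologicalSpace X] {S : Sys X} (T : Tower S)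

theorem W_dvd_of_le {m M : ℕ} (h : m ≤ M) : T.W m ∣ T.W M := by
  induction M, h using Nat.le_induction with
  | base => exact dvd_rfl
  | succ M _ ih => exact ih.trans (T.W_dvd M)

theorem axisVec_add (ax : Bool) (a a' b b' : ℤ) :
    axisVec ax a b + axisVec ax a' b' = axisVec ax (a + a') (b + b') := by
  cases ax <;> simp [axisVec]

theorem along_axis (ax : Bool) (m : ℕ) (t : ℤ) (x : X) :
    T.along ax m (S.sh (axisVec ax t 0) x) = T.along ax m x + (t : ZMod (T.W m)) := by
  cases ax <;> simp [along, axisVec, T.phase_sh]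

theorem across_axis (ax : Bool) (m : ℕ) (t : ℤ) (x : X) :
    T.across ax m (S.sh (axisVec ax t 0) x) = T.across ax m x := by
  cases ax <;> simp [across, axisVec, T.phase_sh]

theorem along_zero_of_le (ax : Bool) {m M : ℕ} (h : m ≤ M) {x : X}
    (hx : T.along ax M x = 0) : T.along ax m x = 0 := by
  induction M, h using Nat.le_induction with
  | base => exact hx
  | succ M _ ih =>
    refine ih ?_
    have := T.phase_cast M x
    cases ax <;> simp [along] at hx ⊢ <;> rw [← this] <;> simp [hx]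

theorem across_zero_of_le (ax : Bool) {m M : ℕ} (h : m ≤ M) {x : X}
    (hx : T.across ax M x = 0) : T.across ax m x = 0 := by
  induction M, h using Nat.le_induction with
  | base => exact hx
  | succ M _ ih =>
    refine ih ?_
    have := T.phase_cast M x
    cases ax <;> simp [across] at hx ⊢ <;> rw [← this] <;> simp [hx]

theorem isClopen_along (ax : Bool) (m : ℕ) (c : ZMod (T.W m)) :
    IsClopen {x | T.along ax m x = c} := by
  have : NeZero (T.W m) := ⟨(T.W_pos m).ne'⟩
  have h : IsLocallyConstant (T.phase m) :=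
    IsLocallyConstant.iff_isOpen_fiber.2 fun d => (T.isClopen_fiber m d).isOpen
  cases ax
  · exact (h.comp Prod.fst).isClopen_fiber c
  · exact (h.comp Prod.snd).isClopen_fiber c

theorem isClopen_across (ax : Bool) (m : ℕ) (c : ZMod (T.W m)) :
    IsClopen {x | T.across ax m x = c} := by
  have : NeZero (T.W m) := ⟨(T.W_pos m).ne'⟩
  have h : IsLocallyConstant (T.phase m) :=
    IsLocallyConstant.iff_isOpen_fiber.2 fun d => (T.isClopen_fiber m d).isOpen
  cases ax
  · exact (h.comp Prod.snd).isClopen_fiber c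
  · exact (h.comp Prod.fst).isClopen_fiber c

theorem isLocallyConstant_segment {M : Type*} [AddCommMonoid M] {f : X → M}
    (hf : IsLocallyConstant f) (ax : Bool) (L : ℕ) :
    IsLocallyConstant fun x => ∑ t ∈ Finset.range L, f (S.sh (axisVec ax (t : ℤ) 0) x) := by
  induction L with
  | zero =>
    simp only [Finset.range_zero, Finset.sum_empty]
    exact IsLocallyConstant.const 0
  | succ L ih =>
    simp only [Finset.sum_range_succ]
    exact ih.comp₂ (hf.comp_continuous (S.sh (axisVec ax (L : ℤ) 0)).continuous) (· + ·)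

/-- A small cyclic distance comes from a small difference. -/
theorem exists_diff_of_cdist_le {L : ℕ} [NeZero L] {t c : ℤ} {Z : ℕ}
    (h : cdist (t : ZMod L) (c : ZMod L) ≤ Z) :
    ∃ d q : ℤ, d.natAbs ≤ Z ∧ t - c = d + q * L := by
  refine ⟨((t : ZMod L) - (c : ZMod L)).valMinAbs, ?_⟩
  have e : (((t : ZMod L) - (c : ZMod L)).valMinAbs : ZMod L) = ((t - c : ℤ) : ZMod L) := by
    push_cast [ZMod.coe_valMinAbs]
    ring
  rw [ZMod.intCast_eq_intCast_iff_dvd_sub] at e
  obtain ⟨q, hq⟩ := e
  exact ⟨q, h, by linarith⟩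

/-- **Boundedly many parities.** The span of the vectors of edge sums is bounded independently
of the family. -/
theorem exists_segment_span [CompactSpace X] (hS : T.Sparse) :
    ∃ B : ℕ, ∀ (ι : Type) [Finite ι] (f : X → ι → ZMod 2), IsLocallyConstant f →
      ∀ (ax : Bool) (r : ℕ), ∃ M, r ≤ M ∧ ∀ M', M ≤ M' → ∃ V : Finset (ι → ZMod 2), V.card ≤ B ∧
        ∀ x, T.across ax M' x = 0 → T.along ax M' x = 0 →
          (∑ t ∈ Finset.range (T.W M'), f (S.sh (axisVec ax (t : ℤ) 0) x)) ∈
            Submodule.span (ZMod 2) (V : Set (ι → ZMod 2)) := by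
  obtain ⟨C₀, Q, hQ⟩ := hS
  refine ⟨Q * (Q * Q), fun ι _ f hf ax r => ?_⟩
  obtain ⟨m, hCm, hCW, hax⟩ := hQ (ι → ZMod 2) f inferInstance hf (8 * C₀ + 8)
  obtain ⟨hper, hsh⟩ := hax ax
  obtain ⟨sh₀, hcard₀, hsh₀⟩ := hsh false
  obtain ⟨sh₁, hcard₁, hsh₁⟩ := hsh true
  set L := T.W (m + 1) with hL
  have : NeZero L := ⟨(T.W_pos (m + 1)).ne'⟩
  set Z := C₀ * T.W m with hZ
  have h8 : 8 * Z + 8 ≤ L := by
    have := T.W_pos m
    calc 8 * Z + 8 ≤ 8 * (C₀ * T.W m) + 8 * T.W m := by rw [hZ]; omega
      _ = (8 * C₀ + 8) * T.W m := by ring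
      _ ≤ L := hCW
  have hreach : T.reach m = L / 8 := rfl
  have hhalf : T.centre true m = ((L / 2 : ℕ) : ZMod L) := rfl
  have hzero : T.centre false m = 0 := rfl
  classical
  -- the observations along the segment at a point, and its three shapes
  let obs : X → ℕ → ι → ZMod 2 := fun x t => f (S.sh (axisVec ax (t : ℤ) 0) x)
  let Fits : X → (ℤ → ℤ → ι → ZMod 2) → Prop := fun y s =>
    ∀ j k : ℤ, j.natAbs ≤ T.reach m → k.natAbs ≤ T.reach m → f (S.sh (axisVec ax j k) y) = s j k
  let Start : X → Prop := fun x => x ∈ T.fault ax ∧ T.along ax (m + 1) x = 0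
  let Fit3 : X → (ℤ → ℤ → ι → ZMod 2) × (ℤ → ℤ → ι → ZMod 2) × (ℤ → ℤ → ι → ZMod 2) → Prop :=
    fun x s => Fits x s.1 ∧ Fits (S.sh (axisVec ax ((L / 2 : ℕ) : ℤ) 0) x) s.2.1 ∧
      Fits (S.sh (axisVec ax (L : ℤ) 0) x) s.2.2
  have hfault : ∀ x ∈ T.fault ax, ∀ t : ℤ, S.sh (axisVec ax t 0) x ∈ T.fault ax :=
    fun x hx t M => by rw [across_axis]; exact hx M
  have hexists : ∀ x, Start x → ∃ s ∈ sh₀ ×ˢ sh₁ ×ˢ sh₀, Fit3 x s := by
    rintro x ⟨hxf, hx0⟩
    obtain ⟨a, ha, ha'⟩ := hsh₀ x hxf (by rw [hzero, hx0])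
    obtain ⟨b, hb, hb'⟩ := hsh₁ (S.sh (axisVec ax ((L / 2 : ℕ) : ℤ) 0) x) (hfault x hxf _)
      (by rw [along_axis, hx0, zero_add, hhalf, Int.cast_natCast])
    obtain ⟨c, hc, hc'⟩ := hsh₀ (S.sh (axisVec ax (L : ℤ) 0) x) (hfault x hxf _)
      (by rw [along_axis, hx0, zero_add, hzero, hL, Int.cast_natCast, ZMod.natCast_self])
    exact ⟨(a, b, c), by simp [ha, hb, hc], ha', hb', hc'⟩
  have hsame : ∀ x x', Start x → Start x' → ∀ s, Fit3 x s → Fit3 x' s →
      ∀ t, t < L → obs x t = obs x' t := by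
    rintro x x' ⟨hxf, hx0⟩ ⟨hxf', hx0'⟩ s ⟨hx1, hx2, hx3⟩ ⟨hy1, hy2, hy3⟩ t ht
    have shift : ∀ (y : X) (c j : ℤ), (t : ℤ) = c + j →
        S.sh (axisVec ax (t : ℤ) 0) y = S.sh (axisVec ax j 0) (S.sh (axisVec ax c 0) y) :=
      fun y c j e => by rw [← S.sh_add, axisVec_add, e, add_comm c j, add_zero]
    by_cases h0 : (t : ℤ).natAbs ≤ T.reach m
    · exact (hx1 t 0 h0 (by simp)).trans (hy1 t 0 h0 (by simp)).symm
    by_cases h1 : ((t : ℤ) - (L : ℤ)).natAbs ≤ T.reach m
    · have e := shift
      show f _ = f _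
      rw [e x (L : ℤ) ((t : ℤ) - L) (by ring), e x' (L : ℤ) ((t : ℤ) - L) (by ring),
        hx3 _ 0 h1 (by simp), hy3 _ 0 h1 (by simp)]
    by_cases h2 : ((t : ℤ) - ((L / 2 : ℕ) : ℤ)).natAbs ≤ T.reach m
    · show f _ = f _
      rw [shift x ((L / 2 : ℕ) : ℤ) ((t : ℤ) - ((L / 2 : ℕ) : ℤ)) (by ring),
        shift x' ((L / 2 : ℕ) : ℤ) ((t : ℤ) - ((L / 2 : ℕ) : ℤ)) (by ring),
        hx2 _ 0 h2 (by simp), hy2 _ 0 h2 (by simp)]
    rw [hreach] at h0 h1 h2
    have hfar : ∀ c, 2 * (0 : ℤ).natAbs + C₀ * T.W m <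
        cdist (((t : ℤ) : ZMod L)) (T.centre c m) := by
      intro c
      rw [Int.natAbs_zero, mul_zero, zero_add, ← hZ]
      by_contra hle
      push Not at hle
      cases c
      · rw [hzero, ← Int.cast_zero] at hle
        obtain ⟨d, q, hd, hq⟩ := exists_diff_of_cdist_le hle
        have hq1 : q < 2 := by
          by_contra hh
          have : 2 * (L : ℤ) ≤ q * L := mul_le_mul_of_nonneg_right (by omega) (by omega)
          omega
        have hq2 : -1 < q := by
          by_contra hh
          have : q * L ≤ (-1) * (L : ℤ) := mul_le_mul_of_nonneg_right (by omega) (by omega)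
          omega
        interval_cases q <;> omega
      · rw [hhalf, ← Int.cast_natCast (L / 2)] at hle
        obtain ⟨d, q, hd, hq⟩ := exists_diff_of_cdist_le hle
        have hq1 : q < 1 := by
          by_contra hh
          have : (L : ℤ) ≤ q * L := le_mul_of_one_le_left (by omega) (by omega)
          omega
        have hq2 : -1 < q := by
          by_contra hh
          have : q * L ≤ -(L : ℤ) := by nlinarith
          omega
        interval_cases q
        omega
    have key := hper (S.sh (axisVec ax (t : ℤ) 0) x) (hfault x hxf _)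
      (S.sh (axisVec ax (t : ℤ) 0) x') (hfault x' hxf' _) 0 (by simp)
      (by rw [along_axis, along_axis, T.along_zero_of_le ax (Nat.le_succ m) hx0,
        T.along_zero_of_le ax (Nat.le_succ m) hx0'])
      (by rw [along_axis, along_axis, hx0, hx0'])
      (fun c => by rw [along_axis, hx0, zero_add]; exact hfar c)
      (fun c => by rw [along_axis, hx0', zero_add]; exact hfar c)
    have e0 : axisVec ax 0 0 = (0 : Lat) := by cases ax <;> rfl
    rwa [e0, S.sh_zero, S.sh_zero] at key
  -- the possible sums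
  let V : Finset (ι → ZMod 2) := (sh₀ ×ˢ sh₁ ×ˢ sh₀).image fun s =>
    if h : ∃ x, Start x ∧ Fit3 x s then ∑ t ∈ Finset.range L, obs h.choose t else 0
  have hVcard : V.card ≤ Q * (Q * Q) := by
    refine Finset.card_image_le.trans ?_
    rw [Finset.card_product, Finset.card_product]
    exact Nat.mul_le_mul hcard₀ (Nat.mul_le_mul hcard₁ hcard₀)
  have hV : ∀ x, Start x → (∑ t ∈ Finset.range L, obs x t) ∈ V := by
    intro x hx
    obtain ⟨s, hs, hfit⟩ := hexists x hx
    have h : ∃ x', Start x' ∧ Fit3 x' s := ⟨x, hx, hfit⟩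
    refine Finset.mem_image.2 ⟨s, hs, ?_⟩
    rw [dif_pos h]
    exact Finset.sum_congr rfl fun t ht =>
      hsame _ _ h.choose_spec.1 hx s h.choose_spec.2 hfit t (Finset.mem_range.1 ht)
  -- compactness
  set F : X → ι → ZMod 2 := fun x => ∑ t ∈ Finset.range L, obs x t with hF
  have hFlc : IsLocallyConstant F := isLocallyConstant_segment hf ax L
  let bad : ℕ → Set X := fun M =>
    {x | T.along ax (m + 1) x = 0} ∩ ({x | T.across ax M x = 0} ∩ F ⁻¹' {v | v ∉ V})
  have hbadc : ∀ M, IsClosed (bad M) := fun M =>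
    (T.isClopen_along ax _ _).isClosed.inter
      ((T.isClopen_across ax _ _).isClosed.inter ⟨by rw [← Set.preimage_compl]; exact hFlc _⟩)
  obtain ⟨M₀, hM₀⟩ : ∃ M, bad M = ∅ := by
    by_contra hne
    push Not at hne
    obtain ⟨x, hx⟩ := IsCompact.nonempty_iInter_of_sequence_nonempty_isCompact_isClosed bad
      (fun M x hx => ⟨hx.1, T.across_zero_of_le ax (Nat.le_succ M) hx.2.1, hx.2.2⟩)
      hne (hbadc 0).isCompact hbadc
    rw [Set.mem_iInter] at hx
    exact (hx 0).2.2 (hV x ⟨fun M => (hx M).2.1, (hx 0).1⟩)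
  refine ⟨max (max r (m + 1)) M₀, le_trans (le_max_left _ _) (le_max_left _ _), fun M hM => ?_⟩
  refine ⟨V, hVcard, fun x hxa hxl => ?_⟩
  have hm1 : m + 1 ≤ M := by omega
  have hM₀' : M₀ ≤ M := by omega
  obtain ⟨q, hq⟩ := T.W_dvd_of_le hm1
  rw [hq, ← hL]
  have hsegs : T.along ax (m + 1) x = 0 → ∀ q : ℕ,
      (∑ t ∈ Finset.range (L * q), f (S.sh (axisVec ax (t : ℤ) 0) x)) ∈
        Submodule.span (ZMod 2) (V : Set (ι → ZMod 2)) := by
    intro h0 q
    induction q with
    | zero => simp
    | succ q ih =>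
      rw [Nat.mul_succ, Finset.sum_range_add]
      refine Submodule.add_mem _ ih (Submodule.subset_span ?_)
      set y := S.sh (axisVec ax ((L * q : ℕ) : ℤ) 0) x with hy
      have hyF : F y ∈ V := by
        by_contra hn
        have : y ∈ bad M₀ := by
          refine ⟨?_, ?_, hn⟩
          · show T.along ax (m + 1) y = 0
            rw [hy, along_axis, h0, zero_add, Int.cast_natCast, Nat.cast_mul, hL,
              ZMod.natCast_self, zero_mul]
          · show T.across ax M₀ y = 0
            rw [hy, across_axis]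
            exact T.across_zero_of_le ax hM₀' hxa
        rw [hM₀] at this
        exact this
      have e : (∑ t ∈ Finset.range L, f (S.sh (axisVec ax (((L * q + t : ℕ) : ℤ)) 0) x)) = F y := by
        refine Finset.sum_congr rfl fun t _ => ?_
        show f _ = f _
        rw [hy, ← S.sh_add, axisVec_add]
        congr 3
        push_cast; ring
      rw [e]
      exact hyF
  exact hsegs (T.along_zero_of_le ax hm1 hxl) q

end Tower

end Vale.Agent.P196.Full
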