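import Vale.Agent.P196.Full.Universal.Defs
import Vale.Agent.P196.Full.Universal.SparseParity

/-!
# P196: sparse towers have bounded types

At the corners of a coarse enough grid an observable takes boundedly many values and the parities
of its counts along the two edges leaving the corner take boundedly many forms.
-/

namespace Vale.Agent.P196.Full

namespace Tower

variable {X : Type} [TopologicalSpace X] {S : Sys X} (T : Tower S)

/-- The observable at the corners of a coarse grid takes boundedly many values. -/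
theorem exists_corner_values [CompactSpace X] (hS : T.Sparse) :
    ∃ B : ℕ, ∀ (α : Type) (f : X → α), Finite α → IsLocallyConstant f → ∀ r : ℕ,
      ∃ M, r ≤ M ∧ ∀ M', M ≤ M' → ∃ V : Finset α, V.card ≤ B ∧
        ∀ x, T.phase M' x = 0 → f x ∈ V := by
  obtain ⟨C₀, Q, hQ⟩ := hS
  refine ⟨Q, fun α f hα hf r => ?_⟩
  classical
  obtain ⟨m, -, -, hax⟩ := hQ α f hα hf 0
  obtain ⟨-, hsh⟩ := hax false
  obtain ⟨sh, hcard, hsh⟩ := hsh false
  set V : Finset α := sh.image fun s => s 0 0
  have hV : ∀ x ∈ T.fault false, T.along false (m + 1) x = 0 → f x ∈ V := by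
    intro x hx h0
    obtain ⟨s, hs, hfit⟩ := hsh x hx h0
    have h := hfit 0 0 (by simp) (by simp)
    have e0 : axisVec false 0 0 = (0 : Lat) := rfl
    rw [e0, S.sh_zero] at h
    exact Finset.mem_image.2 ⟨s, hs, h.symm⟩
  let bad : ℕ → Set X := fun M =>
    {x | T.along false (m + 1) x = 0} ∩ ({x | T.across false M x = 0} ∩ f ⁻¹' {v | v ∉ V})
  have hbadc : ∀ M, IsClosed (bad M) := fun M =>
    (T.isClopen_along false _ _).isClosed.inter
      ((T.isClopen_across false _ _).isClosed.inter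
        ⟨by rw [← Set.preimage_compl]; exact hf _⟩)
  obtain ⟨M₀, hM₀⟩ : ∃ M, bad M = ∅ := by
    by_contra hne
    push Not at hne
    obtain ⟨x, hx⟩ := IsCompact.nonempty_iInter_of_sequence_nonempty_isCompact_isClosed bad
      (fun M x hx => ⟨hx.1, T.across_zero_of_le false (Nat.le_succ M) hx.2.1, hx.2.2⟩)
      hne (hbadc 0).isCompact hbadc
    rw [Set.mem_iInter] at hx
    exact (hx 0).2.2 (hV x (fun M => (hx M).2.1) (hx 0).1)
  refine ⟨max (max r (m + 1)) M₀, le_trans (le_max_left _ _) (le_max_left _ _), fun M hM => ?_⟩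
  refine ⟨V, (Finset.card_image_le).trans hcard, fun x hx => ?_⟩
  by_contra hn
  have hmem : x ∈ bad M₀ :=
    ⟨T.along_zero_of_le false (by omega : m + 1 ≤ M) (congrArg Prod.fst hx),
      T.across_zero_of_le false (by omega : M₀ ≤ M) (congrArg Prod.snd hx), hn⟩
  rw [hM₀] at hmem
  exact hmem

/-- Few vectors span few vectors over `ZMod 2`. -/
theorem exists_finset_span {ι : Type} (V : Finset (ι → ZMod 2)) :
    ∃ P : Finset (ι → ZMod 2), P.card ≤ 2 ^ V.card ∧
      ∀ v ∈ Submodule.span (ZMod 2) (V : Set (ι → ZMod 2)), v ∈ P := by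
  classical
  refine ⟨(Finset.univ : Finset (V → ZMod 2)).image
    (Fintype.linearCombination (ZMod 2) (fun i : V => (i : ι → ZMod 2))), ?_, fun v hv => ?_⟩
  · refine Finset.card_image_le.trans (le_of_eq ?_)
    rw [Finset.card_univ, Fintype.card_fun, ZMod.card, Fintype.card_coe]
  · have e : Set.range (fun i : V => (i : ι → ZMod 2)) = (V : Set (ι → ZMod 2)) :=
      Subtype.range_coe
    rw [← e, ← Fintype.range_linearCombination, LinearMap.mem_range] at hv
    obtain ⟨c, rfl⟩ := hv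
    exact Finset.mem_image_of_mem _ (Finset.mem_univ c)

/-- A sparse tower has bounded types. -/
theorem boundedTypes_of_sparse [CompactSpace X] (hS : T.Sparse) : T.BoundedTypes := by
  classical
  obtain ⟨B₁, hB₁⟩ := T.exists_corner_values hS
  obtain ⟨B₂, hB₂⟩ := T.exists_segment_span hS
  refine ⟨B₁ * (2 ^ B₂ * 2 ^ B₂) + 1, fun α f hα hf C => ?_⟩
  obtain ⟨r, hr⟩ := T.W_unbounded C
  let δ : α → α → ZMod 2 := fun v a => if v = a then 1 else 0
  let g : X → α → ZMod 2 := fun x => δ (f x)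
  have hg : IsLocallyConstant g := hf.comp δ
  obtain ⟨M₁, hr₁, h₁⟩ := hB₁ α f hα hf r
  obtain ⟨M₂, -, h₂⟩ := hB₂ α g hg false r
  obtain ⟨M₃, -, h₃⟩ := hB₂ α g hg true r
  set M := max M₁ (max M₂ M₃)
  obtain ⟨V₁, hc₁, hV₁⟩ := h₁ M (le_max_left _ _)
  obtain ⟨V₂, hc₂, hV₂⟩ := h₂ M (le_trans (le_max_left _ _) (le_max_right _ _))
  obtain ⟨V₃, hc₃, hV₃⟩ := h₃ M (le_trans (le_max_right _ _) (le_max_right _ _))
  obtain ⟨P₂, hp₂, hP₂⟩ := exists_finset_span V₂
  obtain ⟨P₃, hp₃, hP₃⟩ := exists_finset_span V₃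
  let F : Bool → X → α → ZMod 2 := fun ax x =>
    ∑ t ∈ Finset.range (T.W M), g (S.sh (axisVec ax (t : ℤ) 0) x)
  let ty : X → α × (α → ZMod 2) × (α → ZMod 2) := fun x => (f x, F false x, F true x)
  set P := V₁ ×ˢ P₂ ×ˢ P₃
  have hP : P.card ≤ B₁ * (2 ^ B₂ * 2 ^ B₂) := by
    rw [Finset.card_product, Finset.card_product]
    exact Nat.mul_le_mul hc₁ (Nat.mul_le_mul
      (hp₂.trans (Nat.pow_le_pow_right (by norm_num) hc₂))
      (hp₃.trans (Nat.pow_le_pow_right (by norm_num) hc₃)))
  have hty : ∀ x, T.phase M x = 0 → ty x ∈ P := by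
    intro x hx
    have h1 : T.across false M x = 0 := congrArg Prod.snd hx
    have h2 : T.along false M x = 0 := congrArg Prod.fst hx
    simp only [P, Finset.mem_product]
    exact ⟨hV₁ x hx, hP₂ _ (hV₂ x h1 h2), hP₃ _ (hV₃ x h2 h1)⟩
  refine ⟨M, hr.trans (Nat.le_of_dvd (T.W_pos M) (T.W_dvd_of_le (hr₁.trans (le_max_left _ _)))),
    fun x => if h : ty x ∈ P then ((P.equivFin ⟨ty x, h⟩).castLE (by omega)) else 0,
    fun x x' hx hx' h => ?_⟩
  simp only [dif_pos (hty x hx), dif_pos (hty x' hx'), Fin.castLE_inj,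
    EmbeddingLike.apply_eq_iff_eq, Subtype.mk.injEq] at h
  have hfx : f x = f x' := congrArg Prod.fst h
  refine ⟨hfx, fun ax a => ?_⟩
  have hFx : F ax x = F ax x' := by
    cases ax
    · exact congrArg (fun p => p.2.1) h
    · exact congrArg (fun p => p.2.2) h
  have count : ∀ y,
      (Nat.card {j : Fin (T.W M) // f (S.sh (axisVec ax (j : ℤ) 0) y) = a} : ZMod 2) =
        F ax y a := fun y => by
    rw [Nat.card_eq_fintype_card, Fintype.card_subtype, ← Finset.sum_boole]
    simp only [F, g, δ, Finset.sum_apply]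
    exact Fin.sum_univ_eq_sum_range
      (fun t => if f (S.sh (axisVec ax (t : ℤ) 0) y) = a then (1 : ZMod 2) else 0) _
  rw [count, count, hFx]

end Tower

end Vale.Agent.P196.Full
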